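import Vale.Agent.P363.Stmt

/-!
# Orthonormal bases of `L²(μ; ℂ)` given by functions, Parseval, products

Generic part of block B2 (no Sobolev structure here).
-/

namespace Vale.Agent.P363.H518

open MeasureTheory Filter Topology
open scoped ENNReal ComplexConjugate

set_option linter.unusedSectionVars false

noncomputable section

variable {X Y ι κ : Type*} [MeasurableSpace X] [MeasurableSpace Y]

/-- `∫ conj g * f` -/
def coef (μ : Measure X) (g f : X → ℂ) : ℂ := ∫ x, conj (g x) * f x ∂μ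

theorem coef_congr {μ : Measure X} {g g' f f' : X → ℂ} (hg : g =ᵐ[μ] g') (hf : f =ᵐ[μ] f') :
    coef μ g f = coef μ g' f' := by
  unfold coef
  apply integral_congr_ae
  filter_upwards [hg, hf] with x h1 h2
  rw [h1, h2]

theorem memLp_conj {μ : Measure X} {p : ℝ≥0∞} {g : X → ℂ} (hg : MemLp g p μ) :
    MemLp (fun x => conj (g x)) p μ := by
  refine hg.of_le (Complex.continuous_conj.comp_aestronglyMeasurable hg.1) (ae_of_all _ fun x => ?_)
  simp

theorem integrable_coef {μ : Measure X} {g f : X → ℂ} (hg : MemLp g 2 μ) (hf : MemLp f 2 μ) :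
    Integrable (fun x => conj (g x) * f x) μ :=
  (memLp_conj hg).integrable_mul hf

theorem coef_eq_inner {μ : Measure X} {g f : X → ℂ} (hg : MemLp g 2 μ) (hf : MemLp f 2 μ) :
    coef μ g f = inner ℂ (hg.toLp g) (hf.toLp f) := by
  rw [L2.inner_def]
  unfold coef
  apply integral_congr_ae
  filter_upwards [hg.coeFn_toLp, hf.coeFn_toLp] with x h1 h2
  rw [h1, h2, RCLike.inner_apply, mul_comm]

/-- countable orthonormal basis of `L²(μ;ℂ)`, given by functions. -/
structure IsONB (μ : Measure X) (u : ι → X → ℂ) : Prop where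
  mem : ∀ i, MemLp (u i) 2 μ
  one : ∀ i, coef μ (u i) (u i) = 1
  orth : ∀ i j, i ≠ j → coef μ (u i) (u j) = 0
  complete : ∀ f : X → ℂ, MemLp f 2 μ → (∀ i, coef μ (u i) f = 0) → f =ᵐ[μ] 0

theorem norm_toLp_sq {μ : Measure X} {f : X → ℂ} (hf : MemLp f 2 μ) :
    ‖hf.toLp f‖ ^ 2 = ∫ x, ‖f x‖ ^ 2 ∂μ := by
  have h1 := inner_self_eq_norm_sq_to_K (𝕜 := ℂ) (hf.toLp f)
  have h2 : ((∫ x, ‖f x‖ ^ 2 ∂μ : ℝ) : ℂ) = inner ℂ (hf.toLp f) (hf.toLp f) := by
    rw [L2.inner_def, ← integral_complex_ofReal]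
    apply integral_congr_ae
    filter_upwards [hf.coeFn_toLp] with x h1
    rw [h1, RCLike.inner_apply, Complex.mul_conj']
    push_cast; rfl
  rw [h1] at h2
  have h3 : (((∫ x, ‖f x‖ ^ 2 ∂μ : ℝ)) : ℂ) = ((‖hf.toLp f‖ ^ 2 : ℝ) : ℂ) := by
    rw [h2]; push_cast; rfl
  exact (Complex.ofReal_injective h3).symm

/-- the Hilbert basis attached to an `IsONB` family. -/
theorem IsONB.exists_hilbertBasis {μ : Measure X} {u : ι → X → ℂ} (h : IsONB μ u) :
    ∃ b : HilbertBasis ι ℂ (Lp ℂ 2 μ), ∀ i, b i = (h.mem i).toLp (u i) := by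
  classical
  have ho : Orthonormal ℂ (fun i => (h.mem i).toLp (u i)) := by
    rw [orthonormal_iff_ite]
    intro i j
    rw [← coef_eq_inner]
    split_ifs with hij
    · rw [hij]; exact h.one j
    · exact h.orth i j hij
  have hc : (Submodule.span ℂ (Set.range (fun i => (h.mem i).toLp (u i))))ᗮ = ⊥ := by
    rw [Submodule.eq_bot_iff]
    intro f hf
    have h1 : ∀ i, coef μ (u i) f = 0 := by
      intro i
      have h2 := (Submodule.mem_orthogonal _ _).1 hf _
        (Submodule.subset_span (Set.mem_range_self i))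
      rw [← Lp.toLp_coeFn f (Lp.memLp f), ← coef_eq_inner] at h2
      exact h2
    have h3 := h.complete f (Lp.memLp f) h1
    exact (Lp.eq_zero_iff_ae_eq_zero).2 h3
  exact ⟨HilbertBasis.mkOfOrthogonalEqBot ho hc, fun i => by
    rw [HilbertBasis.coe_mkOfOrthogonalEqBot]⟩

/-- **Parseval**. -/
theorem IsONB.hasSum {μ : Measure X} {u : ι → X → ℂ} (h : IsONB μ u) {f : X → ℂ}
    (hf : MemLp f 2 μ) : HasSum (fun i => ‖coef μ (u i) f‖ ^ 2) (∫ x, ‖f x‖ ^ 2 ∂μ) := by
  obtain ⟨b, hb⟩ := h.exists_hilbertBasis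
  have h1 := b.hasSum_inner_mul_inner (hf.toLp f) (hf.toLp f)
  have h2 : ∀ i, inner ℂ (hf.toLp f) (b i) * inner ℂ (b i) (hf.toLp f) =
      ((‖coef μ (u i) f‖ ^ 2 : ℝ) : ℂ) := by
    intro i
    rw [hb, coef_eq_inner (h.mem i) hf, ← inner_conj_symm, RCLike.conj_mul]
    norm_cast
  simp only [h2] at h1
  rw [inner_self_eq_norm_sq_to_K] at h1
  rw [← norm_toLp_sq hf]
  have h3 : ((‖hf.toLp f‖ : ℂ) ^ 2) = ((‖hf.toLp f‖ ^ 2 : ℝ) : ℂ) := by push_cast; rfl
  have h4 : HasSum (fun i => ((‖coef μ (u i) f‖ ^ 2 : ℝ) : ℂ)) ((‖hf.toLp f‖ ^ 2 : ℝ) : ℂ) := by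
    rw [← h3]; exact h1
  exact_mod_cast h4

theorem lintegral_enorm_sq {μ : Measure X} {f : X → ℂ} (hf : MemLp f 2 μ) :
    ∫⁻ x, ‖f x‖ₑ ^ 2 ∂μ = ENNReal.ofReal (∫ x, ‖f x‖ ^ 2 ∂μ) := by
  have h1 : Integrable (fun x => ‖f x‖ ^ 2) μ := (memLp_two_iff_integrable_sq_norm hf.1).1 hf
  rw [ofReal_integral_eq_lintegral_ofReal h1 (ae_of_all _ fun x => by positivity)]
  apply lintegral_congr
  intro x
  rw [← ofReal_norm, ENNReal.ofReal_pow (norm_nonneg _)]

theorem memLp_two_iff_lintegral {μ : Measure X} {f : X → ℂ} (hf : AEStronglyMeasurable f μ) :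
    MemLp f 2 μ ↔ ∫⁻ x, ‖f x‖ₑ ^ 2 ∂μ < ∞ := by
  rw [memLp_two_iff_integrable_sq_norm hf]
  unfold Integrable HasFiniteIntegral
  have h1 : AEStronglyMeasurable (fun x => ‖f x‖ ^ 2) μ := hf.norm.pow 2
  have h2 : ∀ x, ‖‖f x‖ ^ 2‖ₑ = ‖f x‖ₑ ^ 2 := by
    intro x
    rw [enorm_pow, enorm_norm]
  simp only [h1, true_and, h2]

/-- **Parseval**, `ℝ≥0∞` version. -/
theorem IsONB.tsum_enorm {μ : Measure X} {u : ι → X → ℂ} (h : IsONB μ u) {f : X → ℂ}
    (hf : MemLp f 2 μ) : ∑' i, ‖coef μ (u i) f‖ₑ ^ 2 = ∫⁻ x, ‖f x‖ₑ ^ 2 ∂μ := by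
  rw [lintegral_enorm_sq hf, ← (h.hasSum hf).tsum_eq,
    ENNReal.ofReal_tsum_of_nonneg (fun i => by positivity) (h.hasSum hf).summable]
  apply tsum_congr
  intro i
  rw [← ofReal_norm, ENNReal.ofReal_pow (norm_nonneg _)]

/-! ### partial coefficients -/

variable {μ : Measure X} {ν : Measure Y} [SFinite μ] [SFinite ν]

/-- partial coefficient: integrate out the second variable against `w`. -/
def pcoef (ν : Measure Y) (w : Y → ℂ) (f : X × Y → ℂ) (x : X) : ℂ :=
  coef ν w (fun y => f (x, y))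

theorem ae_memLp_slice {f : X × Y → ℂ} (hf : MemLp f 2 (μ.prod ν)) :
    ∀ᵐ x ∂μ, MemLp (fun y => f (x, y)) 2 ν := by
  have h1 : Integrable (fun z => ‖f z‖ ^ 2) (μ.prod ν) :=
    (memLp_two_iff_integrable_sq_norm hf.1).1 hf
  filter_upwards [hf.1.prodMk_left, h1.prod_right_ae] with x h2 h3
  exact (memLp_two_iff_integrable_sq_norm h2).2 h3

theorem aestronglyMeasurable_pcoef {w : Y → ℂ} {f : X × Y → ℂ} (hw : MemLp w 2 ν)
    (hf : MemLp f 2 (μ.prod ν)) : AEStronglyMeasurable (pcoef ν w f) μ := by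
  unfold pcoef coef
  have h1 : AEStronglyMeasurable (fun z : X × Y => conj (w z.2) * f z) (μ.prod ν) := by
    have h2 : AEStronglyMeasurable (fun z : X × Y => conj (w z.2)) (μ.prod ν) :=
      (memLp_conj hw).1.comp_quasiMeasurePreserving Measure.quasiMeasurePreserving_snd
    exact h2.mul hf.1
  exact h1.integral_prod_right'

/-- Bessel-type bound: a partial coefficient of an `L²` function is an `L²` function. -/
theorem memLp_pcoef {w : Y → ℂ} {f : X × Y → ℂ} (hw : MemLp w 2 ν)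
    (hf : MemLp f 2 (μ.prod ν)) : MemLp (pcoef ν w f) 2 μ := by
  rw [memLp_two_iff_lintegral (aestronglyMeasurable_pcoef hw hf)]
  have h1 : ∀ᵐ x ∂μ, ‖pcoef ν w f x‖ₑ ^ 2 ≤
      (∫⁻ y, ‖w y‖ₑ ^ 2 ∂ν) * ∫⁻ y, ‖f (x, y)‖ₑ ^ 2 ∂ν := by
    filter_upwards [ae_memLp_slice hf] with x hx
    unfold pcoef
    rw [coef_eq_inner hw hx]
    have h2 := norm_inner_le_norm (𝕜 := ℂ) (hw.toLp w) (hx.toLp _)
    rw [lintegral_enorm_sq hw, lintegral_enorm_sq hx, ← norm_toLp_sq hw, ← norm_toLp_sq hx,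
      ← ENNReal.ofReal_mul (by positivity), ← ofReal_norm,
      ← ENNReal.ofReal_pow (norm_nonneg _)]
    apply ENNReal.ofReal_le_ofReal
    rw [← mul_pow]
    exact pow_le_pow_left₀ (norm_nonneg _) h2 2
  refine (lintegral_mono_ae h1).trans_lt ?_
  have h3 : AEMeasurable (fun z : X × Y => ‖f z‖ₑ ^ 2) (μ.prod ν) := hf.1.enorm.pow_const 2
  rw [lintegral_const_mul' _ _ (((memLp_two_iff_lintegral hw.1).1 hw).ne),
    ← lintegral_prod _ h3]
  exact ENNReal.mul_lt_top ((memLp_two_iff_lintegral hw.1).1 hw)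
    ((memLp_two_iff_lintegral hf.1).1 hf)

/-- **partial Parseval with a weight.** -/
theorem IsONB.tsum_pcoef [Countable κ] {w : κ → Y → ℂ} (h : IsONB ν w) {f : X × Y → ℂ}
    (hf : MemLp f 2 (μ.prod ν)) {W : X → ℝ≥0∞} (hW : AEMeasurable W μ) :
    ∑' j, ∫⁻ x, W x * ‖pcoef ν (w j) f x‖ₑ ^ 2 ∂μ =
      ∫⁻ z, W z.1 * ‖f z‖ₑ ^ 2 ∂(μ.prod ν) := by
  have h0 : ∀ j, AEMeasurable (fun x => W x * ‖pcoef ν (w j) f x‖ₑ ^ 2) μ := fun j => hW.mul
    ((aestronglyMeasurable_pcoef (h.mem j) hf).enorm.pow_const 2)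
  rw [← lintegral_tsum h0]
  have h1 : AEMeasurable (fun z : X × Y => W z.1 * ‖f z‖ₑ ^ 2) (μ.prod ν) :=
    (hW.comp_quasiMeasurePreserving Measure.quasiMeasurePreserving_fst).mul
      (hf.1.enorm.pow_const 2)
  rw [lintegral_prod _ h1]
  apply lintegral_congr_ae
  filter_upwards [ae_memLp_slice hf, hf.1.prodMk_left] with x hx hx'
  simp only [ENNReal.tsum_mul_left]
  rw [lintegral_const_mul'' _ (hx'.enorm.pow_const 2)]
  congr 1
  exact h.tsum_enorm hx

/-- Fubini: coefficients of products. -/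
theorem coef_prod {v : X → ℂ} {w : Y → ℂ} {f : X × Y → ℂ} (hf : MemLp f 2 (μ.prod ν)) (hvw : MemLp (fun z : X × Y => v z.1 * w z.2) 2 (μ.prod ν)) :
    coef (μ.prod ν) (fun z => v z.1 * w z.2) f = coef μ v (pcoef ν w f) := by
  unfold coef
  rw [integral_prod _ (integrable_coef hvw hf)]
  apply integral_congr_ae
  refine ae_of_all _ fun x => ?_
  unfold pcoef coef
  simp only [map_mul]
  rw [← integral_const_mul]
  apply integral_congr_ae
  exact ae_of_all _ fun y => by ring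

theorem memLp_mul_prod {v : X → ℂ} {w : Y → ℂ} (hv : MemLp v 2 μ) (hw : MemLp w 2 ν) :
    MemLp (fun z : X × Y => v z.1 * w z.2) 2 (μ.prod ν) := by
  have hm : AEStronglyMeasurable (fun z : X × Y => v z.1 * w z.2) (μ.prod ν) :=
    (hv.1.comp_quasiMeasurePreserving Measure.quasiMeasurePreserving_fst).mul
      (hw.1.comp_quasiMeasurePreserving Measure.quasiMeasurePreserving_snd)
  rw [memLp_two_iff_lintegral hm]
  have h1 : ∀ z : X × Y, ‖v z.1 * w z.2‖ₑ ^ 2 = ‖v z.1‖ₑ ^ 2 * ‖w z.2‖ₑ ^ 2 := by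
    intro z; rw [enorm_mul, mul_pow]
  simp only [h1]
  rw [lintegral_prod_mul (hv.1.enorm.pow_const 2) (hw.1.enorm.pow_const 2)]
  exact ENNReal.mul_lt_top ((memLp_two_iff_lintegral hv.1).1 hv)
    ((memLp_two_iff_lintegral hw.1).1 hw)

/-- products of orthonormal bases are orthonormal bases. -/
theorem IsONB.prod [Countable κ] {u : ι → X → ℂ} {w : κ → Y → ℂ} (hu : IsONB μ u)
    (hw : IsONB ν w) : IsONB (μ.prod ν) (fun (p : ι × κ) (z : X × Y) => u p.1 z.1 * w p.2 z.2) where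
  mem p := memLp_mul_prod (hu.mem _) (hw.mem _)
  one p := by
    unfold coef
    have h1 : ∀ z : X × Y, conj (u p.1 z.1 * w p.2 z.2) * (u p.1 z.1 * w p.2 z.2) =
        (conj (u p.1 z.1) * u p.1 z.1) * (conj (w p.2 z.2) * w p.2 z.2) := by
      intro z; rw [map_mul]; ring
    simp only [h1]
    rw [integral_prod_mul (fun x => conj (u p.1 x) * u p.1 x)
      (fun y => conj (w p.2 y) * w p.2 y)]
    have h2 := hu.one p.1
    have h3 := hw.one p.2
    unfold coef at h2 h3
    rw [h2, h3, mul_one]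
  orth p q hpq := by
    unfold coef
    have h1 : ∀ z : X × Y, conj (u p.1 z.1 * w p.2 z.2) * (u q.1 z.1 * w q.2 z.2) =
        (conj (u p.1 z.1) * u q.1 z.1) * (conj (w p.2 z.2) * w q.2 z.2) := by
      intro z; rw [map_mul]; ring
    simp only [h1]
    rw [integral_prod_mul (fun x => conj (u p.1 x) * u q.1 x)
      (fun y => conj (w p.2 y) * w q.2 y)]
    by_cases h2 : p.1 = q.1
    · have h3 : p.2 ≠ q.2 := fun h => hpq (Prod.ext h2 h)
      have h4 := hw.orth _ _ h3
      unfold coef at h4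
      rw [h4, mul_zero]
    · have h4 := hu.orth _ _ h2
      unfold coef at h4
      rw [h4, zero_mul]
  complete f hf h0 := by
    have h1 : ∀ j, pcoef ν (w j) f =ᵐ[μ] 0 := by
      intro j
      apply hu.complete _ (memLp_pcoef (hw.mem j) hf)
      intro i
      rw [← coef_prod hf (memLp_mul_prod (hu.mem i) (hw.mem j))]
      exact h0 (i, j)
    have h2 := hw.tsum_pcoef (μ := μ) hf (W := fun _ => 1) aemeasurable_const
    have h3 : ∀ j, ∫⁻ x, ‖pcoef ν (w j) f x‖ₑ ^ 2 ∂μ = 0 := by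
      intro j
      rw [lintegral_congr_ae (g := fun _ => 0)]
      · simp
      · filter_upwards [h1 j] with x hx
        simp [hx]
    simp only [one_mul, h3, tsum_zero] at h2
    have h4 := (lintegral_eq_zero_iff' (hf.1.enorm.pow_const 2)).1 h2.symm
    filter_upwards [h4] with z hz
    simpa using hz

/-- transport of an orthonormal basis by a measure preserving equivalence. -/
theorem IsONB.comp {u : ι → X → ℂ} (hu : IsONB μ u) (e : Y ≃ᵐ X) (he : MeasurePreserving e ν μ) :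
    IsONB ν (fun i y => u i (e y)) where
  mem i := (hu.mem i).comp_measurePreserving he
  one i := by
    have := hu.one i
    unfold coef at this ⊢
    rw [← this]
    exact he.integral_comp e.measurableEmbedding (fun x => conj (u i x) * u i x)
  orth i j hij := by
    have := hu.orth i j hij
    unfold coef at this ⊢
    rw [← this]
    exact he.integral_comp e.measurableEmbedding (fun x => conj (u i x) * u j x)
  complete f hf h0 := by
    have he' : MeasurePreserving e.symm μ ν := he.symm e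
    have h1 : (fun x => f (e.symm x)) =ᵐ[μ] 0 := by
      apply hu.complete _ (hf.comp_measurePreserving he')
      intro i
      rw [← h0 i]
      unfold coef
      rw [← he.integral_comp e.measurableEmbedding]
      simp
    have h2 := he.quasiMeasurePreserving.ae_eq_comp h1
    filter_upwards [h2] with y hy
    simpa using hy

/-- reindexing -/
theorem IsONB.reindex {u : ι → X → ℂ} (hu : IsONB μ u) (e : κ ≃ ι) :
    IsONB μ (fun k => u (e k)) where
  mem k := hu.mem _
  one k := hu.one _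
  orth k l hkl := hu.orth _ _ fun h => hkl (e.injective h)
  complete f hf h0 := hu.complete f hf fun i => by
    have := h0 (e.symm i)
    simpa using this

end

end Vale.Agent.P363.H518
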