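import Vale.Agent.P363.R2.h518.Extend
import Vale.Agent.P363.H382.Conv

/-!
# Weak derivative of a partial coefficient (contraction), any coordinate
-/

namespace Vale.Agent.P363.H518

open MeasureTheory Filter Topology
open Vale.Agent.P363.Stmt Vale.Agent.P363.R.Sob Vale.Agent.P363.H382
open scoped ENNReal ComplexConjugate ContDiff

set_option linter.unusedSectionVars false

noncomputable section

variable {E₁ E₂ : Type*} [NormedAddCommGroup E₁] [NormedSpace ℝ E₁] [FiniteDimensional ℝ E₁]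
  [MeasurableSpace E₁] [BorelSpace E₁]
  [NormedAddCommGroup E₂] [NormedSpace ℝ E₂] [FiniteDimensional ℝ E₂]
  [MeasurableSpace E₂] [BorelSpace E₂]

/-- product of test functions. -/
theorem test_mul_prod {φ : E₁ → ℝ} {ψ : E₂ → ℝ} (hφ : Test φ) (hψ : Test ψ) :
    Test (fun z : E₁ × E₂ => φ z.1 * ψ z.2) := by
  refine ⟨(hφ.1.comp contDiff_fst).mul (hψ.1.comp contDiff_snd), ?_⟩
  have h1 : IsCompact (tsupport φ ×ˢ tsupport ψ) := hφ.2.isCompact.prod hψ.2.isCompact
  refine HasCompactSupport.intro h1 fun z hz => ?_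
  rw [Set.mem_prod, not_and_or] at hz
  rcases hz with h | h
  · rw [image_eq_zero_of_notMem_tsupport h, zero_mul]
  · rw [image_eq_zero_of_notMem_tsupport h, mul_zero]

theorem fderiv_mul_prod {φ : E₁ → ℝ} {ψ : E₂ → ℝ} (hφ : Test φ) (hψ : Test ψ) (v : E₁)
    (z : E₁ × E₂) :
    fderiv ℝ (fun z : E₁ × E₂ => φ z.1 * ψ z.2) z (v, 0) = fderiv ℝ φ z.1 v * ψ z.2 := by
  have h1 : HasFDerivAt (fun z : E₁ × E₂ => φ z.1)
      ((fderiv ℝ φ z.1).comp (ContinuousLinearMap.fst ℝ E₁ E₂)) z :=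
    (hφ.differentiable z.1).hasFDerivAt.comp z hasFDerivAt_fst
  have h2 : HasFDerivAt (fun z : E₁ × E₂ => ψ z.2)
      ((fderiv ℝ ψ z.2).comp (ContinuousLinearMap.snd ℝ E₁ E₂)) z :=
    (hψ.differentiable z.2).hasFDerivAt.comp z hasFDerivAt_snd
  have h3 := (h1.mul h2).fderiv
  have h4 : (fun z : E₁ × E₂ => φ z.1 * ψ z.2) =
    (fun z : E₁ × E₂ => φ z.1) * fun z : E₁ × E₂ => ψ z.2 := rfl
  rw [h4, h3]
  simp [mul_comm]

variable {μ : Measure E₁} {ν : Measure E₂} [μ.IsAddHaarMeasure] [ν.IsAddHaarMeasure]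

theorem memLp_test {φ : E₁ → ℝ} (h : Test φ) : MemLp (fun x => (φ x : ℂ)) 2 μ := by
  have hc : Continuous (fun x => (φ x : ℂ)) := Complex.continuous_ofReal.comp h.continuous
  have hs : HasCompactSupport (fun x => (φ x : ℂ)) :=
    h.hasCompactSupport.comp_left (g := fun t : ℝ => (t : ℂ)) (by simp)
  exact hc.memLp_of_hasCompactSupport hs

/-- partial coefficient in the first variable. -/
def lcoef (μ : Measure E₁) (φ : E₁ → ℝ) (f : E₁ × E₂ → ℂ) (y : E₂) : ℂ :=
  ∫ x, (φ x : ℂ) * f (x, y) ∂μ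

theorem lcoef_memLp {φ : E₁ → ℝ} (h : Test φ) {f : E₁ × E₂ → ℂ} (hf : MemLp f 2 (μ.prod ν)) :
    MemLp (lcoef μ φ f) 2 ν := by
  have h1 : MemLp (fun z : E₂ × E₁ => f z.swap) 2 (ν.prod μ) :=
    hf.comp_measurePreserving Measure.measurePreserving_swap
  have h2 := memLp_pcoef (memLp_test (μ := μ) h) h1
  refine h2.congr_norm (h2.1.congr (ae_of_all _ fun y => ?_)) (ae_of_all _ fun y => ?_)
  · simp [pcoef, coef, lcoef]
  · simp [pcoef, coef, lcoef]

/-- integrability of `φ(x) w(y) f(x,y)`. -/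
theorem integrable_phi_w {φ : E₁ → ℝ} (h : Test φ) {w : E₂ → ℂ} (hw : MemLp w 2 ν)
    {f : E₁ × E₂ → ℂ} (hf : MemLp f 2 (μ.prod ν)) :
    Integrable (fun z : E₁ × E₂ => (φ z.1 : ℂ) * w z.2 * f z) (μ.prod ν) :=
  (memLp_mul_prod (memLp_test (μ := μ) h) hw).integrable_mul hf

theorem integral_phi_w_left {φ : E₁ → ℝ} (h : Test φ) {w : E₂ → ℂ} (hw : MemLp w 2 ν)
    {f : E₁ × E₂ → ℂ} (hf : MemLp f 2 (μ.prod ν)) :
    ∫ z, (φ z.1 : ℂ) * w z.2 * f z ∂(μ.prod ν) = ∫ y, w y * lcoef μ φ f y ∂ν := by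
  rw [integral_prod_symm _ (integrable_phi_w h hw hf)]
  congr 1; funext y
  unfold lcoef
  rw [← integral_const_mul]
  congr 1; funext x; ring

theorem integral_phi_w_right {φ : E₁ → ℝ} (h : Test φ) {w : E₂ → ℂ} (hw : MemLp w 2 ν)
    {f : E₁ × E₂ → ℂ} (hf : MemLp f 2 (μ.prod ν)) :
    ∫ z, (φ z.1 : ℂ) * w z.2 * f z ∂(μ.prod ν) =
      ∫ x, (φ x : ℂ) * ∫ y, w y * f (x, y) ∂ν ∂μ := by
  rw [integral_prod _ (integrable_phi_w h hw hf)]
  congr 1; funext x
  rw [← integral_const_mul]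
  congr 1; funext y; ring

/-- **contraction**: weak derivative of a partial coefficient. -/
theorem isWD_pcoef {v : E₁} {f g : E₁ × E₂ → ℂ} (h : IsWD (μ.prod ν) (v, 0) f g)
    (hf : MemLp f 2 (μ.prod ν)) (hg : MemLp g 2 (μ.prod ν)) {w : E₂ → ℂ} (hw : MemLp w 2 ν) :
    IsWD μ v (pcoef ν w f) (pcoef ν w g) := by
  intro φ hφ
  have hφ' := hφ.fderiv v
  have key : lcoef μ (fun x => fderiv ℝ φ x v) f =ᵐ[ν] fun y => - lcoef μ φ g y := by
    have hA := lcoef_memLp (ν := ν) hφ' hf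
    have hB := lcoef_memLp (ν := ν) hφ hg
    apply ae_eq_of_integral_contDiff_smul_eq (hA.locallyIntegrable (by norm_num))
      (hB.neg.locallyIntegrable (by norm_num))
    intro ψ hψ hψ'
    have hψt : Test ψ := ⟨hψ, hψ'⟩
    have h1 := h _ (test_mul_prod hφ hψt)
    simp only [fderiv_mul_prod hφ hψt, Complex.real_smul, Complex.ofReal_mul] at h1
    rw [integral_phi_w_left hφ' (memLp_test hψt) hf,
      integral_phi_w_left hφ (memLp_test hψt) hg] at h1
    simp only [Complex.real_smul]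
    rw [h1, ← integral_neg]
    congr 1; funext y
    simp
  have h2 := integral_phi_w_left hφ' (memLp_conj hw) hf
  have h3 := integral_phi_w_left hφ (memLp_conj hw) hg
  rw [integral_phi_w_right hφ' (memLp_conj hw) hf] at h2
  rw [integral_phi_w_right hφ (memLp_conj hw) hg] at h3
  have h4 : ∫ x, (fderiv ℝ φ x v) • pcoef ν w f x ∂μ =
      ∫ x, ((fderiv ℝ φ x v : ℝ) : ℂ) * ∫ y, conj (w y) * f (x, y) ∂ν ∂μ := by
    congr 1
  have h5 : ∫ x, φ x • pcoef ν w g x ∂μ =
      ∫ x, ((φ x : ℝ) : ℂ) * ∫ y, conj (w y) * g (x, y) ∂ν ∂μ := by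
    congr 1
  rw [h4, h5, h2, h3, ← integral_neg]
  apply integral_congr_ae
  filter_upwards [key] with y hy
  rw [hy]; ring

/-! ### the `i`-th electron -/

/-- `(x, y) ↦ i.insertNth x y` as a continuous linear equivalence. -/
def insE {n : ℕ} (i : Fin (n + 1)) : (R3 × Conf n) ≃L[ℝ] Conf (n + 1) where
  toFun p := i.insertNth (α := fun _ => R3) p.1 p.2
  invFun x := (x i, i.removeNth x)
  map_add' p q := by
    funext j
    refine Fin.succAboveCases i ?_ (fun j => ?_) j <;> simp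
  map_smul' c p := by
    funext j
    refine Fin.succAboveCases i ?_ (fun j => ?_) j <;> simp
  left_inv p := by simp
  right_inv x := by simp
  continuous_toFun := by
    refine continuous_pi fun j => ?_
    refine Fin.succAboveCases i ?_ (fun j => ?_) j
    · simpa using continuous_fst
    · simp only [Fin.insertNth_apply_succAbove]
      exact (continuous_apply j).comp continuous_snd
  continuous_invFun := by
    refine (continuous_apply i).prodMk ?_
    exact continuous_pi fun j => continuous_apply (i.succAbove j)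

@[simp] theorem insE_apply {n : ℕ} (i : Fin (n + 1)) (p : R3 × Conf n) :
    insE i p = i.insertNth (α := fun _ => R3) p.1 p.2 := rfl

theorem insE_eq {n : ℕ} (i : Fin (n + 1)) :
    (insE i : R3 × Conf n → Conf (n + 1)) =
      (MeasurableEquiv.piFinSuccAbove (fun _ : Fin (n + 1) => R3) i).symm := rfl

theorem insE_mp {n : ℕ} (i : Fin (n + 1)) :
    MeasurePreserving (insE i : R3 × Conf n → Conf (n + 1)) volume volume := by
  rw [insE_eq]
  exact (volume_preserving_piFinSuccAbove (fun _ : Fin (n + 1) => R3) i).symm _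

theorem insE_dir {n : ℕ} (i : Fin (n + 1)) (k : Fin 3) :
    insE i (e3 k, (0 : Conf n)) = dir i k := by
  funext j
  refine Fin.succAboveCases i ?_ (fun j => ?_) j
  · simp [dir]
  · simp [dir, Fin.succAbove_ne]

/-- weak derivative of the partial coefficient in the `i`-th coordinate. -/
theorem isWD_pc {n : ℕ} {ι : Type*} [Countable ι] {u : ι → R3 → ℂ} (hu : IsONB volume u)
    (i : Fin (n + 1)) (k : Fin 3) (J : Fin n → ι) {f g : Conf (n + 1) → ℂ}
    (h : IsWD volume (dir i k) f g) (hf : MemLp f 2 volume) (hg : MemLp g 2 volume) :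
    IsWD volume (e3 k) (pc volume u i J f) (pc volume u i J g) := by
  have h1 : IsWD (volume : Measure (R3 × Conf n)) (e3 k, (0 : Conf n))
      (fun z => f (insE i z)) (fun z => g (insE i z)) := by
    apply isWD_comp_equiv (insE i) (insE_mp i)
    rw [insE_dir]
    exact h
  exact isWD_pcoef (μ := (volume : Measure R3)) (ν := (volume : Measure (Conf n))) h1
    (hf.comp_measurePreserving (insE_mp i)) (hg.comp_measurePreserving (insE_mp i))
    ((hu.pi n).mem J)

end

end Vale.Agent.P363.H518
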