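import Vale.Agent.P363.R2.h518.StarN
import Vale.Agent.P363.H382.Contract

/-!
# Pauli principle in contraction form
-/

namespace Vale.Agent.P363.H518

open MeasureTheory Filter Topology
open Vale.Agent.P363.Stmt Vale.Agent.P363.R.Sob Vale.Agent.P363.H382
open scoped ENNReal ComplexConjugate ContDiff

noncomputable section

/-- Pauli principle for the coefficients, generic index type. -/
theorem coef_eq_zero_of_not_inj {ι : Type*} {u : ι → R3 → ℂ} {N : ℕ} (Ψ : ElectronState N)
    (s : Fin N → Fin 2) (I : Fin N → ι)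
    (hni : ¬ Function.Injective fun i => (I i, s i)) :
    coef (volume : Measure (Conf N)) (prodFun u I) (Ψ.amp s) = 0 := by
  rw [Function.not_injective_iff] at hni
  obtain ⟨i, j, hij, hne⟩ := hni
  simp only [Prod.mk.injEq] at hij
  set σ := Equiv.swap i j with hσ
  have hI : I ∘ σ = I := by
    funext l
    simp only [Function.comp_apply, hσ]
    rcases eq_or_ne l i with h | h
    · subst h; rw [Equiv.swap_apply_left]; exact hij.1.symm
    · rcases eq_or_ne l j with h' | h'
      · subst h'; rw [Equiv.swap_apply_right]; exact hij.1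
      · rw [Equiv.swap_apply_of_ne_of_ne h h']
  have hs : s ∘ σ = s := by
    funext l
    simp only [Function.comp_apply, hσ]
    rcases eq_or_ne l i with h | h
    · subst h; rw [Equiv.swap_apply_left]; exact hij.2.symm
    · rcases eq_or_ne l j with h' | h'
      · subst h'; rw [Equiv.swap_apply_right]; exact hij.2
      · rw [Equiv.swap_apply_of_ne_of_ne h h']
  have h1 := coef_perm (μ := (volume : Measure R3)) (u := u) σ I (Ψ.amp s)
  rw [hI] at h1
  have h2 : ∀ᵐ x : Conf N, Ψ.amp s (x ∘ σ.symm) = - Ψ.amp s x := by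
    have h3 : ∀ᵐ x : Conf N, Ψ.amp (s ∘ σ) (x ∘ σ) = ((Equiv.Perm.sign σ : ℤ) : ℂ) * Ψ.amp s x :=
      Ψ.antisymm σ s
    have h4 : σ.symm = σ := Equiv.symm_swap i j
    rw [h4]
    filter_upwards [h3] with x hx
    rw [hs] at hx
    rw [hx, hσ, Equiv.Perm.sign_swap hne]
    simp
  have h3 : coef (piM (volume : Measure R3) N) (prodFun u I) (fun x => Ψ.amp s (x ∘ σ.symm)) =
      - coef (piM (volume : Measure R3) N) (prodFun u I) (Ψ.amp s) := by
    unfold coef
    rw [← integral_neg]
    apply integral_congr_ae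
    have h2' : ∀ᵐ x ∂(piM (volume : Measure R3) N), Ψ.amp s (x ∘ σ.symm) = - Ψ.amp s x := h2
    filter_upwards [h2'] with x hx
    rw [hx]; ring
  rw [h3] at h1
  have h4 : coef (piM (volume : Measure R3) N) (prodFun u I) (Ψ.amp s) = 0 := by
    have : (2 : ℂ) * coef (piM (volume : Measure R3) N) (prodFun u I) (Ψ.amp s) = 0 := by
      linear_combination (-1 : ℂ) * h1
    simpa using this
  exact h4

/-- the coefficients of `contrL` -/
theorem coef_contrL {ι : Type*} [Countable ι] {u : ι → R3 → ℂ} (hu : IsONB volume u) {n : ℕ}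
    (a : ι) (J : Fin n → ι) {f : Conf (n + 1) → ℂ} (hf : MemLp f 2 volume) :
    coef (volume : Measure (Conf n)) (prodFun u J) (contrL (u a) f) =
      coef (volume : Measure (Conf (n + 1))) (prodFun u (Fin.cons a J)) f := by
  -- both are the integral of `conj (u a x) conj (u_J y) f (x, y)`
  have hfu := memLp_unc hf
  have hprod : MemLp (fun z : R3 × Conf n => u a z.1 * prodFun u J z.2) 2
      ((volume : Measure R3).prod (volume : Measure (Conf n))) :=
    memLp_mul_prod (hu.mem a) ((hu.pi n).mem J)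
  have hint := integrable_coef hprod hfu
  have h1 : coef (volume : Measure (Conf n)) (prodFun u J) (contrL (u a) f) =
      ∫ z : R3 × Conf n, conj (u a z.1 * prodFun u J z.2) * unc f z
        ∂((volume : Measure R3).prod (volume : Measure (Conf n))) := by
    rw [integral_prod_symm _ hint]
    unfold coef
    congr 1; funext y
    unfold contrL
    rw [← integral_const_mul]
    congr 1; funext x
    simp only [map_mul, unc]
    ring
  rw [h1]
  unfold coef
  have h2 := consE_mp (n := n)
  have h3 : ∫ z : R3 × Conf n, conj (prodFun u (Fin.cons a J : Fin (n + 1) → ι) (consE z)) *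
      f (consE z) = ∫ x : Conf (n + 1), conj (prodFun u (Fin.cons a J) x) * f x :=
    h2.integral_comp (consE.toHomeomorph.measurableEmbedding)
      (fun x => conj (prodFun u (Fin.cons a J) x) * f x)
  rw [← h3]
  have h4 : (volume : Measure (R3 × Conf n)) =
    (volume : Measure R3).prod (volume : Measure (Conf n)) := rfl
  rw [h4]
  congr 1; funext z
  have h5 : prodFun u (Fin.cons a J : Fin (n + 1) → ι) (consE z) =
      u a z.1 * prodFun u J z.2 := by
    unfold prodFun
    rw [Fin.prod_univ_succ]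
    simp [consE_apply]
  rw [h5]
  rfl

open Classical in
/-- **Pauli principle** for a unit vector. -/
theorem pauli_unit {n : ℕ} (Ψ : ElectronState (n + 1)) {w : R3 → ℂ} (hw : MemLp w 2 volume)
    (hw1 : ∫ x, ‖w x‖ ^ 2 = 1) :
    ((n : ℝ) + 1) * ∑ s, ∫ y, ‖contrL w (Ψ.amp s) y‖ ^ 2 ≤ 2 * normSq Ψ := by
  have hone : coef volume w w = 1 := by
    unfold coef
    have : ∀ x, conj (w x) * w x = ((‖w x‖ ^ 2 : ℝ) : ℂ) := by
      intro x; rw [Complex.conj_mul']; push_cast; rfl
    simp only [this]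
    rw [integral_complex_ofReal, hw1]; simp
  obtain ⟨κ, hκ, u, hu, hul⟩ := exists_isONB_extension (μ := (volume : Measure R3))
    (fun _ : Fin 1 => w) (fun _ => hw) (fun _ => hone)
    (fun i j hij => (hij (Subsingleton.elim _ _)).elim)
  set a : Fin 1 ⊕ κ := Sum.inl 0 with ha
  have hua : u a = w := hul 0
  -- counting function
  let cnt : (Fin (n + 1) → Fin 1 ⊕ κ) → ℝ := fun I =>
    ((Finset.univ.filter fun i => I i = a).card : ℝ)
  have hcnt : ∀ (s : Fin (n + 1) → Fin 2) (I : Fin (n + 1) → Fin 1 ⊕ κ),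
      cnt I * ‖coef volume (prodFun u I) (Ψ.amp s)‖ ^ 2 ≤
        2 * ‖coef volume (prodFun u I) (Ψ.amp s)‖ ^ 2 := by
    intro s I
    by_cases hinj : Function.Injective fun i => (I i, s i)
    · apply mul_le_mul_of_nonneg_right _ (sq_nonneg _)
      have h2 : (Finset.univ.filter fun i => I i = a).card ≤
          (Finset.univ : Finset (Fin 2)).card := by
        apply Finset.card_le_card_of_injOn s (fun _ _ => Finset.mem_univ _)
        intro i hi j hj hij
        have hi' := (Finset.mem_filter.1 hi).2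
        have hj' := (Finset.mem_filter.1 hj).2
        apply hinj
        simp only [Prod.mk.injEq]
        exact ⟨hi'.trans hj'.symm, hij⟩
      have h3 : ((Finset.univ.filter fun i => I i = a).card : ℝ) ≤ (2 : ℕ) := by
        exact_mod_cast (by simpa using h2)
      show ((Finset.univ.filter fun i => I i = a).card : ℝ) ≤ 2
      simpa using h3
    · rw [coef_eq_zero_of_not_inj Ψ s I hinj]
      simp
  -- summability
  have hS : ∀ s, HasSum (fun I => ‖coef volume (prodFun u I) (Ψ.amp s)‖ ^ 2)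
      (∫ x, ‖Ψ.amp s x‖ ^ 2) := fun s => (hu.pi (n + 1)).hasSum (Ψ.amp_memLp s)
  -- indicator of `I i = a`
  let ind : Fin (n + 1) → (Fin (n + 1) → Fin 1 ⊕ κ) → ℝ := fun i I => if I i = a then 1 else 0
  have hcnt' : ∀ I, cnt I = ∑ i, ind i I := by
    intro I
    simp only [cnt, ind, Finset.sum_boole]
  have hsum : ∀ s i, Summable fun I => ind i I * ‖coef volume (prodFun u I) (Ψ.amp s)‖ ^ 2 := by
    intro s i
    apply Summable.of_nonneg_of_le _ _ (hS s).summable
    · intro I; simp only [ind]; split_ifs <;> positivity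
    · intro I; simp only [ind]; split_ifs
      · rw [one_mul]
      · rw [zero_mul]; positivity
  -- each electron gives the same after summation over the spins
  have hperm : ∀ i : Fin (n + 1), ∑ s, ∑' I, ind i I * ‖coef volume (prodFun u I) (Ψ.amp s)‖ ^ 2 =
      ∑ s, ∑' I, ind 0 I * ‖coef volume (prodFun u I) (Ψ.amp s)‖ ^ 2 := by
    intro i
    set σ := Equiv.swap 0 i with hσ
    have hanti : ∀ (s : Fin (n + 1) → Fin 2) (I : Fin (n + 1) → Fin 1 ⊕ κ),
        ‖coef volume (prodFun u (I ∘ σ)) (Ψ.amp (s ∘ σ))‖ =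
          ‖coef volume (prodFun u I) (Ψ.amp s)‖ := by
      intro s I
      have h1 := coef_perm (μ := (volume : Measure R3)) (u := u) σ I (Ψ.amp s)
      have h3 : ∀ᵐ x : Conf (n + 1), Ψ.amp (s ∘ σ) (x ∘ σ) =
          ((Equiv.Perm.sign σ : ℤ) : ℂ) * Ψ.amp s x := Ψ.antisymm σ s
      have h4 : ∀ᵐ x : Conf (n + 1), Ψ.amp (s ∘ σ) x =
          ((Equiv.Perm.sign σ : ℤ) : ℂ) * Ψ.amp s (x ∘ σ.symm) := by
        have h5 := (permE_mp (N := n + 1) σ.symm).quasiMeasurePreserving.ae h3
        filter_upwards [h5] with x hx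
        simp only [permE_apply] at hx
        have h6 : (x ∘ σ.symm) ∘ σ = x := by funext j; simp
        rw [h6] at hx
        exact hx
      have h5 : coef volume (prodFun u (I ∘ σ)) (Ψ.amp (s ∘ σ)) =
          ((Equiv.Perm.sign σ : ℤ) : ℂ) *
            coef (piM (volume : Measure R3) (n + 1)) (prodFun u (I ∘ σ))
              (fun x => Ψ.amp s (x ∘ σ.symm)) := by
        unfold coef
        rw [← integral_const_mul]
        apply integral_congr_ae
        filter_upwards [h4] with x hx
        rw [hx]; ring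
      rw [h5, h1, norm_mul]
      have h6 : ‖((Equiv.Perm.sign σ : ℤ) : ℂ)‖ = 1 := by
        rcases Int.units_eq_one_or (Equiv.Perm.sign σ) with h | h <;> rw [h] <;> simp
      rw [h6, one_mul]
      rfl
    have hre : ∑ s, ∑' I, ind i I * ‖coef volume (prodFun u I) (Ψ.amp s)‖ ^ 2 =
        ∑ s : Fin (n + 1) → Fin 2, ∑' I : Fin (n + 1) → Fin 1 ⊕ κ,
          ind i (I ∘ σ) * ‖coef volume (prodFun u (I ∘ σ)) (Ψ.amp (s ∘ σ))‖ ^ 2 := by
      rw [← (Equiv.arrowCongr σ.symm (Equiv.refl (Fin 2))).sum_comp]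
      refine Finset.sum_congr rfl fun s _ => ?_
      rw [← (Equiv.arrowCongr σ.symm (Equiv.refl (Fin 1 ⊕ κ))).tsum_eq]
      rfl
    rw [hre]
    refine Finset.sum_congr rfl fun s _ => tsum_congr fun I => ?_
    rw [hanti s I]
    have : ind i (I ∘ σ) = ind 0 I := by
      simp only [ind, Function.comp_apply, hσ, Equiv.swap_apply_right]
    rw [this]
  -- electron 0
  have h0 : ∀ s, ∑' I, ind 0 I * ‖coef volume (prodFun u I) (Ψ.amp s)‖ ^ 2 =
      ∫ y, ‖contrL w (Ψ.amp s) y‖ ^ 2 := by
    intro s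
    have hP : HasSum (fun J : Fin n → Fin 1 ⊕ κ =>
        ‖coef volume (prodFun u J) (contrL w (Ψ.amp s))‖ ^ 2)
        (∫ y, ‖contrL w (Ψ.amp s) y‖ ^ 2) :=
      (hu.pi n).hasSum (memLp_contrL hw (Ψ.amp_memLp s))
    rw [← hP.tsum_eq]
    have hinj : Function.Injective (fun J : Fin n → Fin 1 ⊕ κ =>
        (Fin.cons a J : Fin (n + 1) → Fin 1 ⊕ κ)) := by
      intro J K hJK
      have := congrArg Fin.tail hJK
      simpa using this
    have hsupp : Function.support (fun I : Fin (n + 1) → Fin 1 ⊕ κ =>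
        ind 0 I * ‖coef volume (prodFun u I) (Ψ.amp s)‖ ^ 2) ⊆
        Set.range (fun J : Fin n → Fin 1 ⊕ κ => (Fin.cons a J : Fin (n + 1) → Fin 1 ⊕ κ)) := by
      intro I hI
      rw [Function.mem_support] at hI
      have h1 : I 0 = a := by
        by_contra h
        apply hI
        simp only [ind, if_neg h, zero_mul]
      refine ⟨Fin.tail I, ?_⟩
      show Fin.cons a (Fin.tail I) = I
      rw [← h1, Fin.cons_self_tail]
    rw [← hinj.tsum_eq hsupp]
    refine tsum_congr fun J => ?_
    have h1 := coef_contrL hu a J (Ψ.amp_memLp s)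
    rw [hua] at h1
    rw [h1]
    simp [ind]
  -- conclusion
  have hfin : ((n : ℝ) + 1) * ∑ s, ∫ y, ‖contrL w (Ψ.amp s) y‖ ^ 2 =
      ∑ s, ∑' I, cnt I * ‖coef volume (prodFun u I) (Ψ.amp s)‖ ^ 2 := by
    have h1 : ∀ s, ∑' I, cnt I * ‖coef volume (prodFun u I) (Ψ.amp s)‖ ^ 2 =
        ∑ i, ∑' I, ind i I * ‖coef volume (prodFun u I) (Ψ.amp s)‖ ^ 2 := by
      intro s
      rw [← Summable.tsum_finsetSum (fun i _ => hsum s i)]
      refine tsum_congr fun I => ?_
      rw [hcnt', Finset.sum_mul]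
    simp only [h1]
    rw [Finset.sum_comm, Finset.sum_congr rfl fun i _ => hperm i]
    simp only [h0, Finset.sum_const, Finset.card_univ, Fintype.card_fin, nsmul_eq_mul]
    push_cast; ring
  rw [hfin]
  unfold normSq
  rw [Finset.mul_sum]
  refine Finset.sum_le_sum fun s _ => ?_
  rw [intR_eq, ← (hS s).tsum_eq, ← tsum_mul_left]
  refine Summable.tsum_le_tsum (hcnt s) ?_ ((hS s).summable.mul_left 2)
  apply Summable.of_nonneg_of_le _ (hcnt s) ((hS s).summable.mul_left 2)
  intro I; positivity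

/-- **Pauli principle**, contraction form. -/
theorem pauli {n : ℕ} (Ψ : ElectronState (n + 1)) {w : R3 → ℂ} (hw : MemLp w 2 volume) :
    ((n : ℝ) + 1) * ∑ s, ∫ y, ‖contrL w (Ψ.amp s) y‖ ^ 2 ≤ 2 * (∫ x, ‖w x‖ ^ 2) * normSq Ψ := by
  set m := ∫ x, ‖w x‖ ^ 2 with hm
  have hm0 : 0 ≤ m := integral_nonneg fun x => by positivity
  rcases hm0.eq_or_lt with h | h
  · -- `w = 0` a.e.
    have hw2 : Integrable (fun x => ‖w x‖ ^ 2) := (memLp_two_iff_integrable_sq_norm hw.1).1 hw
    have h1 := (integral_eq_zero_iff_of_nonneg (fun x => by positivity) hw2).1 h.symm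
    have h2 : ∀ s y, contrL w (Ψ.amp s) y = 0 := by
      intro s y
      unfold contrL
      rw [integral_congr_ae (g := fun _ => 0)]
      · simp
      · filter_upwards [h1] with x hx
        have : w x = 0 := by
          have h3 : ‖w x‖ ^ 2 = 0 := hx
          simpa using h3
        simp [this]
    simp [h2, ← h]
  · set c : ℝ := (Real.sqrt m)⁻¹ with hc
    have hsq : Real.sqrt m ^ 2 = m := Real.sq_sqrt hm0
    have hs0 : 0 < Real.sqrt m := Real.sqrt_pos.2 h
    have hw' : MemLp (fun x => (c : ℂ) * w x) 2 volume := hw.const_mul _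
    have h1 : ∫ x, ‖(c : ℂ) * w x‖ ^ 2 = 1 := by
      simp only [norm_mul, mul_pow, Complex.norm_real, Real.norm_eq_abs, sq_abs]
      rw [integral_const_mul, ← hm, hc, inv_pow, hsq]
      exact inv_mul_cancel₀ h.ne'
    have h2 := pauli_unit Ψ hw' h1
    have h3 : ∀ s y, ‖contrL (fun x => (c : ℂ) * w x) (Ψ.amp s) y‖ ^ 2 =
        c ^ 2 * ‖contrL w (Ψ.amp s) y‖ ^ 2 := by
      intro s y
      unfold contrL
      have : ∀ x : R3, conj ((c : ℂ) * w x) * Ψ.amp s (Fin.cons x y) =
          (c : ℂ) * (conj (w x) * Ψ.amp s (Fin.cons x y)) := by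
        intro x; rw [map_mul, Complex.conj_ofReal]; ring
      simp only [this]
      rw [integral_const_mul, norm_mul, mul_pow, Complex.norm_real, Real.norm_eq_abs, sq_abs]
    simp only [h3] at h2
    simp only [integral_const_mul, ← Finset.mul_sum] at h2
    have h4 : c ^ 2 = m⁻¹ := by rw [hc, inv_pow, hsq]
    rw [h4] at h2
    have h5 := mul_le_mul_of_nonneg_left h2 hm0
    calc ((n : ℝ) + 1) * ∑ s, ∫ y, ‖contrL w (Ψ.amp s) y‖ ^ 2 =
        m * (((n : ℝ) + 1) * (m⁻¹ * ∑ s, ∫ y, ‖contrL w (Ψ.amp s) y‖ ^ 2)) := by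
          field_simp
      _ ≤ m * (2 * normSq Ψ) := h5
      _ = 2 * m * normSq Ψ := by ring

end

end Vale.Agent.P363.H518
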