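import Vale.Agent.P363.R2.h518.ProdN

/-!
# Extension of a finite orthonormal family to a countable orthonormal basis
-/

namespace Vale.Agent.P363.H518

open MeasureTheory Filter Topology
open scoped ENNReal ComplexConjugate

set_option linter.unusedSectionVars false

noncomputable section

universe w₀

variable {X : Type w₀} [MeasurableSpace X] {μ : Measure X}

/-- orthonormal sets in separable spaces are countable. -/
theorem countable_of_orthonormal {E : Type*} [NormedAddCommGroup E] [InnerProductSpace ℂ E]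
    [TopologicalSpace.SeparableSpace E] {w : Set E} (h : Orthonormal ℂ ((↑) : w → E)) :
    w.Countable := by
  have h1 : (Set.univ : Set w).PairwiseDisjoint (fun a : w => Metric.ball (a : E) (1 / 2)) := by
    intro a _ b _ hab
    rw [Function.onFun]
    apply Metric.ball_disjoint_ball
    have h2 : ‖(a : E) - b‖ ^ 2 = 2 := by
      rw [@norm_sub_sq ℂ]
      have h3 := h.2 hab
      rw [h3, h.1 a, h.1 b]
      norm_num
    rw [dist_eq_norm]
    nlinarith [norm_nonneg ((a : E) - b)]
  have h2 := h1.countable_of_isOpen (fun a _ => Metric.isOpen_ball)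
    (fun a _ => ⟨a, Metric.mem_ball_self (by norm_num)⟩)
  exact Set.countable_coe_iff.1 (Set.countable_univ_iff.1 h2)

/-- **Extension** of a finite orthonormal family of functions to a countable orthonormal basis. -/
theorem exists_isONB_extension [IsSeparable μ] [SigmaFinite μ] {m : ℕ} (φ : Fin m → X → ℂ)
    (hφ : ∀ i, MemLp (φ i) 2 μ) (h1 : ∀ i, coef μ (φ i) (φ i) = 1)
    (h0 : ∀ i j, i ≠ j → coef μ (φ i) (φ j) = 0) :
    ∃ (κ : Type w₀) (_ : Countable κ) (u : Fin m ⊕ κ → X → ℂ), IsONB μ u ∧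
      ∀ i, u (Sum.inl i) = φ i := by
  classical
  have : Fact (1 ≤ (2 : ℝ≥0∞)) := ⟨by norm_num⟩
  have : Fact ((2 : ℝ≥0∞) ≠ ∞) := ⟨by norm_num⟩
  let Φ : Fin m → Lp ℂ 2 μ := fun i => (hφ i).toLp (φ i)
  have hΦ : Orthonormal ℂ Φ := by
    rw [orthonormal_iff_ite]
    intro i j
    simp only [Φ]
    rw [← coef_eq_inner]
    split_ifs with hij
    · rw [hij]; exact h1 j
    · exact h0 i j hij
  obtain ⟨w, b, hsw, hb⟩ := hΦ.toSubtypeRange.exists_hilbertBasis_extension
  have hcw : w.Countable := by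
    apply countable_of_orthonormal
    have := b.orthonormal
    rwa [hb] at this
  have hbo : Orthonormal ℂ ((↑) : w → Lp ℂ 2 μ) := by
    have := b.orthonormal
    rwa [hb] at this
  let κ := {x : Lp ℂ 2 μ // x ∈ w ∧ x ∉ Set.range Φ}
  have hκ : Countable κ := by
    have : {x : Lp ℂ 2 μ | x ∈ w ∧ x ∉ Set.range Φ}.Countable := hcw.mono fun x hx => hx.1
    exact this
  let v : Fin m ⊕ κ → Lp ℂ 2 μ := Sum.elim Φ (fun k => k.1)
  let u : Fin m ⊕ κ → X → ℂ := Sum.elim φ (fun k => (k.1 : X → ℂ))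
  have hu : ∀ s, MemLp (u s) 2 μ := by
    rintro (i | k)
    · exact hφ i
    · exact Lp.memLp k.1
  have huv : ∀ s, (hu s).toLp (u s) = v s := by
    rintro (i | k)
    · rfl
    · exact Lp.toLp_coeFn k.1 (Lp.memLp k.1)
  have hvw : ∀ s, v s ∈ w := by
    rintro (i | k)
    · exact hsw (Set.mem_range_self i)
    · exact k.2.1
  have hvinj : ∀ s t, s ≠ t → v s ≠ v t := by
    rintro (i | k) (j | l) hst
    · exact fun h => hst (by rw [hΦ.linearIndependent.injective h])
    · exact fun h => l.2.2 ⟨i, h⟩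
    · exact fun h => k.2.2 ⟨j, h.symm⟩
    · exact fun h => hst (by rw [Subtype.ext h])
  have hvo : ∀ s t, s ≠ t → inner ℂ (v s) (v t) = 0 := by
    intro s t hst
    have := hbo.2 (i := ⟨v s, hvw s⟩) (j := ⟨v t, hvw t⟩)
      (fun h => hvinj s t hst (congrArg Subtype.val h))
    exact this
  have hv1 : ∀ s, inner ℂ (v s) (v s) = 1 := by
    intro s
    have := hbo.1 ⟨v s, hvw s⟩
    rw [inner_self_eq_norm_sq_to_K]
    have h2 : ‖v s‖ = 1 := this
    rw [h2]; norm_num
  refine ⟨κ, hκ, u, ⟨hu, fun s => ?_, fun s t hst => ?_, fun f hf hf0 => ?_⟩, fun i => rfl⟩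
  · rw [coef_eq_inner (hu s) (hu s), huv]; exact hv1 s
  · rw [coef_eq_inner (hu s) (hu t), huv, huv]; exact hvo s t hst
  · have h2 : ∀ x : w, inner ℂ (x : Lp ℂ 2 μ) (hf.toLp f) = 0 := by
      intro x
      by_cases hx : (x : Lp ℂ 2 μ) ∈ Set.range Φ
      · obtain ⟨i, hi⟩ := hx
        have h3 := hf0 (Sum.inl i)
        rw [coef_eq_inner (hu _) hf, huv] at h3
        rw [← hi]; exact h3
      · have h3 := hf0 (Sum.inr ⟨x, x.2, hx⟩)
        rw [coef_eq_inner (hu _) hf, huv] at h3
        exact h3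
    have h3 : hf.toLp f = 0 := by
      have h4 := b.hasSum_inner_mul_inner (hf.toLp f) (hf.toLp f)
      have h5 : ∀ i, inner ℂ (hf.toLp f) (b i) * inner ℂ (b i) (hf.toLp f) = 0 := by
        intro i
        rw [hb, h2 i, mul_zero]
      simp only [h5] at h4
      have h6 := h4.unique hasSum_zero
      exact inner_self_eq_zero.1 h6
    have h4 := hf.coeFn_toLp
    rw [h3] at h4
    exact h4.symm.trans (Lp.coeFn_zero _ _ _)

end

end Vale.Agent.P363.H518
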