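import Vale.Agent.P363.R2.h518.StarN
import Vale.Agent.P363.R.Sob.S16

/-!
# STAR without the integrability hypothesis
-/

namespace Vale.Agent.P363.H518

open MeasureTheory Filter Topology
open Vale.Agent.P363.Stmt Vale.Agent.P363.R.Sob Vale.Agent.P363.H382 Vale.Agent.P363.R.Top
open scoped ENNReal ComplexConjugate ContDiff

noncomputable section

/-- `|Ψ|²/|x_i|` is integrable for states of finite kinetic energy. -/
theorem integrable_inv_norm {N : ℕ} (Ψ : ElectronState N) (s : Fin N → Fin 2) (i : Fin N) :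
    Integrable (fun x : Conf N => ‖x i‖⁻¹ * ‖Ψ.amp s x‖ ^ 2) := by
  have h := (coulomb_le (μ := (volume : Measure (Conf N)))
    (ContinuousLinearMap.proj (R := ℝ) (φ := fun _ : Fin N => R3) i) 0
    (b := fun k => dir i k) (fun k => by simp [dir, e3]) (Ψ.amp_memLp s)
    (fun k => Ψ.grad_memLp s i k) (fun k => isWeakDeriv_iff.1 (Ψ.grad_weak s i k))).1
  refine h.congr (ae_of_all _ fun x => ?_)
  simp only [ContinuousLinearMap.proj_apply, sub_zero]
  rw [div_eq_inv_mul]

/-- **STAR**: the gap of the noninteracting atom with `N` electrons. -/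
theorem star' (H : Hydro) {N : ℕ} (Ψ : ElectronState N) :
    (E0 N + 5 / 72) * normSq Ψ - (5 / 72) * pSq Ψ ≤ energy (pot 0) Ψ :=
  star H Ψ fun s i => integrable_inv_norm Ψ s i

/-- Bessel: the projection on the noninteracting ground space does not increase the norm. -/
theorem pSq_le (H : Hydro) {N : ℕ} (Ψ : ElectronState N) : pSq Ψ ≤ normSq Ψ := by
  classical
  obtain ⟨κ, hκ, u, hu, hul⟩ := exists_isONB_extension (μ := (volume : Measure R3)) corb H.mem
    H.one H.orth
  rw [← tsum_good hul Ψ]
  unfold normSq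
  refine Finset.sum_le_sum fun s _ => ?_
  have hf : MemLp (Ψ.amp s) 2 (volume : Measure (Conf N)) := Ψ.amp_memLp s
  have hS := summable_cI hu hf
  rw [intR_eq, ← hS.tsum_eq]
  have hle : ∀ I, (if good I then ‖cI u (Ψ.amp s) I‖ ^ 2 else 0) ≤ ‖cI u (Ψ.amp s) I‖ ^ 2 := by
    intro I; split_ifs
    · exact le_rfl
    · positivity
  refine Summable.tsum_le_tsum hle ?_ hS.summable
  apply Summable.of_nonneg_of_le _ hle hS.summable
  intro I; split_ifs <;> positivity

theorem pSq_nonneg {N : ℕ} (Ψ : ElectronState N) : 0 ≤ pSq Ψ :=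
  Finset.sum_nonneg fun _ _ => sq_nonneg _

/-- the noninteracting energy is bounded below by `E0 N`. -/
theorem energy_ge (H : Hydro) {N : ℕ} (Ψ : ElectronState N) :
    E0 N * normSq Ψ ≤ energy (pot 0) Ψ := by
  have h1 := star' H Ψ
  have h2 := pSq_le H Ψ
  linarith

/-- the part orthogonal to the noninteracting ground space is controlled by the energy. -/
theorem perp_le (H : Hydro) {N : ℕ} (Ψ : ElectronState N) :
    (5 / 72) * (normSq Ψ - pSq Ψ) ≤ energy (pot 0) Ψ - E0 N * normSq Ψ := by
  have h1 := star' H Ψ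
  linarith

theorem E0_three : E0 3 = -9 / 8 := by norm_num [E0]
theorem E0_four : E0 4 = -5 / 4 := by norm_num [E0]
theorem E0_five : E0 5 = -11 / 8 := by norm_num [E0]

end

end Vale.Agent.P363.H518
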