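import Vale.Agent.P363.R2.h518.Contract
import Vale.Agent.P363.R.Top.Defs

/-!
# Block B2: the gap of the noninteracting `N`-electron atom (STAR)
-/

namespace Vale.Agent.P363.H518

open MeasureTheory Filter Topology
open Vale.Agent.P363.Stmt Vale.Agent.P363.R.Sob Vale.Agent.P363.H382 Vale.Agent.P363.R.Top
open scoped ENNReal ComplexConjugate ContDiff

set_option linter.unusedSectionVars false

noncomputable section

/-! ### real form of the weighted partial Parseval identity -/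

section real

variable {X ι : Type*} [MeasurableSpace X] {μ : Measure X} [SigmaFinite μ] [Countable ι]
  {u : ι → X → ℂ} {n : ℕ} {f : (Fin (n + 1) → X) → ℂ}

theorem lintegral_weight {Y : Type*} [MeasurableSpace Y] {ν : Measure Y} {W : Y → ℝ}
    {g : Y → ℂ} (hW : ∀ y, 0 ≤ W y) :
    ∫⁻ y, ENNReal.ofReal (W y) * ‖g y‖ₑ ^ 2 ∂ν = ∫⁻ y, ENNReal.ofReal (W y * ‖g y‖ ^ 2) ∂ν := by
  apply lintegral_congr
  intro y
  rw [ENNReal.ofReal_mul (hW y), ← ofReal_norm, ENNReal.ofReal_pow (norm_nonneg _)]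

/-- real form of the weighted partial Parseval identity. -/
theorem hasSum_pc (hu : IsONB μ u) (i : Fin (n + 1)) (hf : MemLp f 2 (piM μ (n + 1)))
    {W : X → ℝ} (hWm : Measurable W) (hW : ∀ x, 0 ≤ W x)
    (hint : Integrable (fun z => W (z i) * ‖f z‖ ^ 2) (piM μ (n + 1))) :
    (∀ J, Integrable (fun x => W x * ‖pc μ u i J f x‖ ^ 2) μ) ∧
      HasSum (fun J => ∫ x, W x * ‖pc μ u i J f x‖ ^ 2 ∂μ)
        (∫ z, W (z i) * ‖f z‖ ^ 2 ∂(piM μ (n + 1))) := by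
  have h1 := tsum_pc hu i hf (W := fun x => ENNReal.ofReal (W x)) hWm.ennreal_ofReal.aemeasurable
  have h2 : ∫⁻ z, ENNReal.ofReal (W (z i)) * ‖f z‖ₑ ^ 2 ∂(piM μ (n + 1)) =
      ENNReal.ofReal (∫ z, W (z i) * ‖f z‖ ^ 2 ∂(piM μ (n + 1))) := by
    rw [ofReal_integral_eq_lintegral_ofReal hint
      (ae_of_all _ fun z => mul_nonneg (hW _) (sq_nonneg _))]
    exact lintegral_weight (W := fun z : Fin (n + 1) → X => W (z i)) (fun z => hW _)
  rw [h2] at h1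
  have hne : ∑' J, ∫⁻ x, ENNReal.ofReal (W x) * ‖pc μ u i J f x‖ₑ ^ 2 ∂μ ≠ ⊤ := by
    rw [h1]; exact ENNReal.ofReal_ne_top
  have h3 : ∀ J, Integrable (fun x => W x * ‖pc μ u i J f x‖ ^ 2) μ := by
    intro J
    have hJ := ENNReal.ne_top_of_tsum_ne_top hne J
    rw [lintegral_weight hW] at hJ
    refine ⟨hWm.aestronglyMeasurable.mul ((memLp_pc hu i J hf).1.norm.pow 2), ?_⟩
    rw [hasFiniteIntegral_iff_ofReal (ae_of_all _ fun z => mul_nonneg (hW _) (sq_nonneg _))]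
    exact hJ.lt_top
  refine ⟨h3, ?_⟩
  have h4 : ∀ J, (∫⁻ x, ENNReal.ofReal (W x) * ‖pc μ u i J f x‖ₑ ^ 2 ∂μ).toReal =
      ∫ x, W x * ‖pc μ u i J f x‖ ^ 2 ∂μ := by
    intro J
    rw [lintegral_weight hW, ← ofReal_integral_eq_lintegral_ofReal (h3 J)
      (ae_of_all _ fun z => mul_nonneg (hW _) (sq_nonneg _))]
    exact ENNReal.toReal_ofReal (integral_nonneg fun x => mul_nonneg (hW _) (sq_nonneg _))
  have h5 := ENNReal.hasSum_toReal hne
  simp only [h4] at h5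
  convert h5 using 1
  have h6 := congrArg ENNReal.toReal h1
  rw [ENNReal.tsum_toReal_eq (fun J => ENNReal.ne_top_of_tsum_ne_top hne J),
    ENNReal.toReal_ofReal (integral_nonneg fun x => mul_nonneg (hW _) (sq_nonneg _))] at h6
  simp only [h4] at h6
  exact h6.symm

end real

/-! ### the one-body input -/

/-- complex version of the hydrogen orbitals -/
def corb (a : Fin 5) (x : R3) : ℂ := (orb a x : ℂ)

/-- The one-body hydrogen inequality (block B1), in the form used here. -/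
structure Hydro : Prop where
  mem : ∀ a, MemLp (corb a) 2 (volume : Measure R3)
  one : ∀ a, coef volume (corb a) (corb a) = 1
  orth : ∀ a b, a ≠ b → coef volume (corb a) (corb b) = 0
  ineq : ∀ (f : R3 → ℂ) (g : Fin 3 → R3 → ℂ), MemLp f 2 (volume : Measure R3) →
    (∀ k, MemLp (g k) 2 (volume : Measure R3)) →
    (∀ k, IsWD (volume : Measure R3) (e3 k) f (g k)) →
    ∑ a, orbE a * ‖coef volume (corb a) f‖ ^ 2 -
        (1 / 18) * ((∫ x, ‖f x‖ ^ 2) - ∑ a, ‖coef volume (corb a) f‖ ^ 2) ≤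
      (1 / 2) * (∑ k, ∫ x, ‖g k x‖ ^ 2) - ∫ x, ‖x‖⁻¹ * ‖f x‖ ^ 2

/-- weights of the basis -/
def wt {κ : Type*} : Fin 5 ⊕ κ → ℝ := Sum.elim orbE (fun _ => -(1 / 18))

theorem wt_bound {κ : Type*} (b : Fin 5 ⊕ κ) : |wt b| ≤ 1 := by
  rcases b with a | k
  · simp only [wt, Sum.elim_inl, orbE]
    split_ifs <;> norm_num [abs_le]
  · simp only [wt, Sum.elim_inr]
    norm_num [abs_le]

section onebody

variable {κ : Type} [Countable κ] {u : Fin 5 ⊕ κ → R3 → ℂ}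

/-- right-hand side of the hydrogen inequality as a sum over the basis. -/
theorem hasSum_wt (hu : IsONB volume u) (hul : ∀ a, u (Sum.inl a) = corb a) {f : R3 → ℂ}
    (hf : MemLp f 2 (volume : Measure R3)) :
    HasSum (fun b => wt b * ‖coef volume (u b) f‖ ^ 2)
      (∑ a, orbE a * ‖coef volume (corb a) f‖ ^ 2 -
        (1 / 18) * ((∫ x, ‖f x‖ ^ 2) - ∑ a, ‖coef volume (corb a) f‖ ^ 2)) := by
  have h1 := (hu.hasSum hf).mul_left (-(1 / 18 : ℝ))
  have h2 : HasSum (fun b : Fin 5 ⊕ κ => Sum.elim (fun a => (orbE a + 1 / 18) *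
      ‖coef volume (corb a) f‖ ^ 2) (fun _ => 0) b)
      (∑ a, (orbE a + 1 / 18) * ‖coef volume (corb a) f‖ ^ 2) := by
    have h3 : HasSum (fun a : Fin 5 => (orbE a + 1 / 18) * ‖coef volume (corb a) f‖ ^ 2)
      (∑ a, (orbE a + 1 / 18) * ‖coef volume (corb a) f‖ ^ 2) := hasSum_fintype _
    have h4 := h3.sum (f := Sum.elim (fun a => (orbE a + 1 / 18) *
      ‖coef volume (corb a) f‖ ^ 2) (fun _ : κ => (0 : ℝ))) (hasSum_zero)
    simpa using h4
  have h3 := h1.add h2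
  have hfun : (fun b => wt b * ‖coef volume (u b) f‖ ^ 2) = fun b : Fin 5 ⊕ κ =>
      -(1 / 18) * ‖coef volume (u b) f‖ ^ 2 + Sum.elim (fun a => (orbE a + 1 / 18) *
      ‖coef volume (corb a) f‖ ^ 2) (fun _ => 0) b := by
    funext b
    rcases b with a | k
    · simp only [wt, Sum.elim_inl, hul]; ring
    · simp only [wt, Sum.elim_inr]; ring
  have hval : ∑ a, orbE a * ‖coef volume (corb a) f‖ ^ 2 -
        (1 / 18) * ((∫ x, ‖f x‖ ^ 2) - ∑ a, ‖coef volume (corb a) f‖ ^ 2) =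
      -(1 / 18) * (∫ x, ‖f x‖ ^ 2) + ∑ a, (orbE a + 1 / 18) * ‖coef volume (corb a) f‖ ^ 2 := by
    have : ∀ a, (orbE a + 1 / 18) * ‖coef volume (corb a) f‖ ^ 2 =
        orbE a * ‖coef volume (corb a) f‖ ^ 2 + (1 / 18) * ‖coef volume (corb a) f‖ ^ 2 := by
      intro a; ring
    rw [Finset.sum_congr rfl fun a _ => this a, Finset.sum_add_distrib, ← Finset.mul_sum]
    ring
  rw [hfun, hval]
  exact h3

/-- coefficients in the product basis -/
def cI {N : ℕ} (u : Fin 5 ⊕ κ → R3 → ℂ) (f : Conf N → ℂ) (I : Fin N → Fin 5 ⊕ κ) : ℂ :=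
  coef volume (prodFun u I) f

theorem summable_cI (hu : IsONB volume u) {N : ℕ} {f : Conf N → ℂ} (hf : MemLp f 2 volume) :
    HasSum (fun I => ‖cI u f I‖ ^ 2) (∫ x, ‖f x‖ ^ 2) :=
  (hu.pi N).hasSum hf

theorem summable_wt_cI (hu : IsONB volume u) {N : ℕ} {f : Conf N → ℂ} (hf : MemLp f 2 volume)
    (i : Fin N) : Summable (fun I => wt (I i) * ‖cI u f I‖ ^ 2) := by
  apply Summable.of_norm_bounded (summable_cI hu hf).summable
  intro I
  rw [Real.norm_eq_abs, abs_mul, abs_of_nonneg (sq_nonneg ‖cI u f I‖)]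
  have := wt_bound (I i)
  nlinarith [sq_nonneg ‖cI u f I‖]

/-- **the hydrogen inequality in the `i`-th electron.** -/
theorem electron_ineq (H : Hydro) (hu : IsONB volume u) (hul : ∀ a, u (Sum.inl a) = corb a)
    {n : ℕ} (i : Fin (n + 1)) {f : Conf (n + 1) → ℂ} {g : Fin 3 → Conf (n + 1) → ℂ}
    (hf : MemLp f 2 volume) (hg : ∀ k, MemLp (g k) 2 volume)
    (hfg : ∀ k, IsWD volume (dir i k) f (g k))
    (hint : Integrable (fun x => ‖x i‖⁻¹ * ‖f x‖ ^ 2)) :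
    ∑' I, wt (I i) * ‖cI u f I‖ ^ 2 ≤
      (1 / 2) * (∑ k, ∫ x, ‖g k x‖ ^ 2) - ∫ x, ‖x i‖⁻¹ * ‖f x‖ ^ 2 := by
  have hWm : Measurable (fun x : R3 => ‖x‖⁻¹) := measurable_norm.inv
  -- Parseval for the pieces
  obtain ⟨-, hV⟩ := hasSum_pc (μ := (volume : Measure R3)) hu i hf hWm
    (fun x => inv_nonneg.2 (norm_nonneg x)) hint
  have hK : ∀ k, HasSum (fun J => ∫ x, ‖pc volume u i J (g k) x‖ ^ 2) (∫ x, ‖g k x‖ ^ 2) := by
    intro k
    have h1 : Integrable (fun z : Conf (n + 1) => (1 : ℝ) * ‖g k z‖ ^ 2) := by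
      simpa using (memLp_two_iff_integrable_sq_norm (hg k).1).1 (hg k)
    have h2 := (hasSum_pc (μ := (volume : Measure R3)) hu i (hg k) (W := fun _ => 1)
      measurable_const (fun _ => zero_le_one) h1).2
    simp only [one_mul] at h2
    exact h2
  have hA : HasSum (fun J => (1 / 2) * (∑ k, ∫ x, ‖pc volume u i J (g k) x‖ ^ 2) -
      ∫ x, ‖x‖⁻¹ * ‖pc volume u i J f x‖ ^ 2)
      ((1 / 2) * (∑ k, ∫ x, ‖g k x‖ ^ 2) - ∫ x, ‖x i‖⁻¹ * ‖f x‖ ^ 2) :=
    ((hasSum_sum fun k _ => hK k).mul_left (1 / 2)).sub hV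
  -- the lower bound for each `J`
  have hJ : ∀ J, ∑' b, wt b * ‖coef volume (u b) (pc volume u i J f)‖ ^ 2 ≤
      (1 / 2) * (∑ k, ∫ x, ‖pc volume u i J (g k) x‖ ^ 2) -
      ∫ x, ‖x‖⁻¹ * ‖pc volume u i J f x‖ ^ 2 := by
    intro J
    rw [(hasSum_wt hu hul (memLp_pc hu i J hf)).tsum_eq]
    exact H.ineq _ _ (memLp_pc hu i J hf) (fun k => memLp_pc hu i J (hg k))
      (fun k => isWD_pc hu i k J (hfg k) hf (hg k))
  -- reindexing of the double sum
  let e : (Fin (n + 1) → Fin 5 ⊕ κ) ≃ (Fin 5 ⊕ κ) × (Fin n → Fin 5 ⊕ κ) :=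
    (Fin.insertNthEquiv (fun _ : Fin (n + 1) => Fin 5 ⊕ κ) i).symm
  have he : ∀ I, wt (I i) * ‖cI u f I‖ ^ 2 =
      wt (e I).1 * ‖coef volume (u (e I).1) (pc volume u i (e I).2 f)‖ ^ 2 := by
    intro I
    have h1 : cI u f I = coef volume (u (I i)) (pc volume u i (i.removeNth I) f) :=
      coef_pc hu i I hf
    rw [h1]; rfl
  have hs1 : Summable (fun p : (Fin 5 ⊕ κ) × (Fin n → Fin 5 ⊕ κ) =>
      wt p.1 * ‖coef volume (u p.1) (pc volume u i p.2 f)‖ ^ 2) := by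
    have h1 := summable_wt_cI hu hf i
    rw [← e.symm.summable_iff] at h1
    convert h1 using 1
    funext p
    have := he (e.symm p)
    simp only [Function.comp_apply]
    rw [this, Equiv.apply_symm_apply]
  have h2 : ∑' I, wt (I i) * ‖cI u f I‖ ^ 2 =
      ∑' J, ∑' b, wt b * ‖coef volume (u b) (pc volume u i J f)‖ ^ 2 := by
    simp only [he]
    rw [e.tsum_eq (fun p : (Fin 5 ⊕ κ) × (Fin n → Fin 5 ⊕ κ) =>
      wt p.1 * ‖coef volume (u p.1) (pc volume u i p.2 f)‖ ^ 2)]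
    rw [← (Equiv.prodComm (Fin n → Fin 5 ⊕ κ) (Fin 5 ⊕ κ)).tsum_eq]
    have hs2 := (Equiv.prodComm (Fin n → Fin 5 ⊕ κ) (Fin 5 ⊕ κ)).summable_iff.2 hs1
    exact hs2.tsum_prod
  rw [h2, ← hA.tsum_eq]
  have hs3 : Summable (fun J => ∑' b, wt b * ‖coef volume (u b) (pc volume u i J f)‖ ^ 2) := by
    have hs2 := (Equiv.prodComm (Fin n → Fin 5 ⊕ κ) (Fin 5 ⊕ κ)).summable_iff.2 hs1
    exact hs2.prod
  exact hs3.tsum_le_tsum hJ hA.summable

end onebody

end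

end Vale.Agent.P363.H518
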