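import Vale.Agent.P363.R2.h518.G1b
import Vale.Agent.P363.R.B4.Hyp
import Vale.Agent.P363.H95.RepTen
import Vale.Agent.P363.R.H10.Table
import Vale.Agent.P363.H979.CI.Main
import Vale.Agent.P363.H761.TenC
import Vale.Agent.P363.H382.Energy

/-!
# Instantiation of the hypotheses `Hyp` of the B4 assembly, `N = 4, 5`
-/

namespace Vale.Agent.P363.H518

open MeasureTheory Filter Topology
open Vale.Agent.P363.Stmt Vale.Agent.P363.R.Sob Vale.Agent.P363.H382 Vale.Agent.P363.R.Top
open Vale.Agent.P363.R.B4 Vale.Agent.P363.H95 Vale.Agent.P363.H979.CI Vale.Agent.P363.R.H10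
open scoped ENNReal ComplexConjugate ContDiff InnerProductSpace

noncomputable section

/-! ### link between the repulsion form and the tensor form -/

theorem Dc_corb (a b c d : Fin 5) : Dc corb a b c d = ((eri a b c d : ℝ) : ℂ) := by
  unfold Dc coul eri
  rw [← integral_prod _ (integrable_eri a b c d), ← integral_complex_ofReal]
  congr 1; funext z
  simp only [corb, Complex.conj_ofReal]
  push_cast
  ring

theorem coulInt_corb : CoulInt corb := by
  intro a b c d
  have h := (integrable_eri a b c d).ofReal (𝕜 := ℂ)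
  refine h.congr (ae_of_all _ fun z => ?_)
  change ((orb a z.1 * orb b z.1 * (orb c z.2 * orb d z.2) / ‖z.1 - z.2‖ : ℝ) : ℂ) = _
  simp only [corb, Complex.conj_ofReal]
  push_cast
  ring

theorem wForm_stT {n : ℕ} (c : CT (n + 2)) :
    wForm (stT c) (stT c) = ((WF eri c.1 : ℝ) : ℂ) := by
  have h := wForm_ofTen (H := oneBody) (hc := c.2.1) (hd := c.2.1) orth_corb coulInt_corb
  have h0 : wForm (stT c) (stT c) = _ := h
  -- the form is real
  have hreal : (wForm (stT c) (stT c)).im = 0 := by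
    unfold wForm
    rw [Complex.im_sum]
    refine Finset.sum_eq_zero fun s _ => ?_
    have : ∫ x, ((rep x : ℝ) : ℂ) * (conj ((stT c).amp s x) * (stT c).amp s x) =
        ((∫ x, rep x * ‖(stT c).amp s x‖ ^ 2 : ℝ) : ℂ) := by
      rw [← integral_complex_ofReal]
      congr 1; funext x
      rw [Complex.conj_mul']
      push_cast; rfl
    rw [this, Complex.ofReal_im]
  apply Complex.ext
  · rw [Complex.ofReal_re, h0]
    unfold WF
    have h1 : ((n + 2 : ℂ) * (n + 1) / 2) = (((n + 2 : ℝ) * (n + 1) / 2 : ℝ) : ℂ) := by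
      push_cast; ring
    rw [h1, Complex.re_ofReal_mul]
    congr 1
    simp only [Complex.re_sum]
    refine Finset.sum_congr rfl fun J _ => Finset.sum_congr rfl fun p _ =>
      Finset.sum_congr rfl fun q _ => Finset.sum_congr rfl fun p' _ =>
      Finset.sum_congr rfl fun q' _ => ?_
    have h2 : velc (Dc corb) p q p' q' = ((vel eri p q p' q' : ℝ) : ℂ) := by
      unfold velc vel
      split_ifs
      · exact Dc_corb _ _ _ _
      · simp
    rw [h2, Complex.re_ofReal_mul]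
  · rw [hreal, Complex.ofReal_im]

/-- **T4 link**: the repulsion energy of a core state is the tensor form. -/
theorem qd_rep_T {n : ℕ} (c : CT (n + 2)) : qd (repFS (n + 2)) (T (n + 2) c) = WF eri c.1 := by
  rw [qd_repFS]
  have h := wForm_stT c
  have h1 : wForm (stT c) (stT c) =
      ((∑ s, ∫ x, rep x * ‖(ofFS (T (n + 2) c)).amp s x‖ ^ 2 : ℝ) : ℂ) := by
    unfold wForm
    rw [Complex.ofReal_sum]
    refine Finset.sum_congr rfl fun s _ => ?_
    rw [← integral_complex_ofReal]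
    apply integral_congr_ae
    filter_upwards [amb_none_ae (stT c) s] with x hx
    have e1 : (ofFS (T (n + 2) c)).amp s x = (stT c).amp s x := hx
    rw [e1, Complex.conj_mul']
    push_cast; rfl
  rw [h1] at h
  exact_mod_cast h

theorem norm_J_T_sq {N : ℕ} (c : CT N) : ‖J N (T N c)‖ ^ 2 = nsq c.1 := by
  have h := inner_T c c
  rw [inner_self_eq_norm_sq_to_K, H761.tin_self] at h
  have h' : ((‖J N (T N c)‖ ^ 2 : ℝ) : ℂ) = ((nsq c.1 : ℝ) : ℂ) := by
    rw [← h]; push_cast; rfl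
  exact Complex.ofReal_injective h'

/-! ### the two instances -/

theorem energy_link {N : ℕ} (lam : ℝ) (Ψ : ElectronState N) :
    energy (pot lam) Ψ = qd (pert (hamFS N 0) (repFS N) lam) (toFS Ψ) := by
  have h1 : pert (hamFS N 0) (repFS N) lam = hamFS N lam := (hamFS_eq N lam).symm
  rw [h1, qd_hamFS]
  apply energy_congr
  intro s
  exact (amb_none_ae Ψ s).symm

/-- core tensor of the atom -/
def c5 (i : Fin 3 × Fin 2) : CT 5 :=
  ⟨C5 (i.1.succ.succ) i.2, H761.anti_C5 _ _, H761.core_C5 _ _⟩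

/-- core tensor of the ion -/
def c4 : CT 4 := ⟨C4, H761.anti_C4, H761.core_C4⟩

/-- states of the atom -/
def e5 (i : Fin 3 × Fin 2) : FS 5 := T 5 (c5 i)

/-- states of the ion -/
def e4 (_ : Unit) : FS 4 := T 4 c4

theorem two_le_succ_succ (j : Fin 3) : (2 : Fin 5) ≤ j.succ.succ := by
  fin_cases j <;> decide

theorem sum_nsq5 (c : Ten 5) : ∑ e ∈ ({2, 3, 4} : Finset (Fin 5)), ∑ s, ‖tin (C5 e s) c‖ ^ 2 =
    ∑ i : Fin 3 × Fin 2, ‖tin (C5 (i.1.succ.succ) i.2) c‖ ^ 2 := by
  rw [Fintype.sum_prod_type]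
  rw [Fin.sum_univ_three]
  rw [Finset.sum_insert (by decide), Finset.sum_insert (by decide), Finset.sum_singleton]
  have e0 : (Fin.succ (Fin.succ 0) : Fin 5) = 2 := rfl
  have e1 : (Fin.succ (Fin.succ 1) : Fin 5) = 3 := rfl
  have e2 : (Fin.succ (Fin.succ 2) : Fin 5) = 4 := rfl
  simp only [e0, e1, e2]
  ring

theorem hyp5 (hW : ∀ i : Fin 3 × Fin 2, WF eri (C5 (i.1.succ.succ) i.2) = eri 0 0 0 0 + w5) :
    Hyp 5 (hamFS 5 0) (repFS 5) (coreP 5) e5 (-11 / 8) (eri 0 0 0 0 + w5) (5 / 72) (1 / 20)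
      (1 / 4) (4 * (5 : ℕ) + 1 / 4) where
  fin := inferInstance
  en := energy_link
  pt := by
    have h := pt 5
    rw [E0_five] at h
    exact h
  hw0 := by
    rw [eri_0000]
    have := w5_bounds
    linarith [this.1]
  hg1 := by norm_num
  eP i := ⟨c5 i, rfl⟩
  eO i j := by
    have h := inner_T (c5 i) (c5 j)
    have h1 : ⟪jN 5 (e5 i), jN 5 (e5 j)⟫_ℂ = tin (c5 i).1 (c5 j).1 := h
    rw [h1]
    have h2 := H761.tin_C5 (two_le_succ_succ i.1) (two_le_succ_succ j.1) (s := i.2) (s' := j.2)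
    have h3 : tin (c5 i).1 (c5 j).1 = tin (C5 i.1.succ.succ i.2) (C5 j.1.succ.succ j.2) := rfl
    rw [h3, h2]
    by_cases h4 : i = j
    · subst h4; simp
    · rw [if_neg h4, if_neg]
      rintro ⟨h5, h6⟩
      exact h4 (Prod.ext (Fin.succ_injective _ (Fin.succ_injective _ h5.symm)) h6.symm)
  eW i := by
    have h := qd_rep_T (n := 3) (c5 i)
    have h1 : qd (repFS 5) (e5 i) = WF eri (c5 i).1 := h
    rw [h1]
    exact hW i
  gap := by
    rintro _ ⟨c, rfl⟩
    have h := gap5 eri table_eri c.1 c.2.1 c.2.2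
    have h1 : qd (repFS 5) (T 5 c) = WF eri c.1 := qd_rep_T (n := 3) c
    have h2 : ‖jN 5 (T 5 c)‖ ^ 2 = nsq c.1 := norm_J_T_sq c
    have h3 : ∀ i, ⟪jN 5 (e5 i), jN 5 (T 5 c)⟫_ℂ = tin (C5 (i.1.succ.succ) i.2) c.1 := fun i =>
      inner_T (c5 i) c
    rw [h1, h2]
    simp only [h3]
    rw [← sum_nsq5]
    exact h

theorem hyp4 (hW : WF eri C4 = eri 0 0 0 0 + w4) :
    Hyp 4 (hamFS 4 0) (repFS 4) (coreP 4) e4 (-5 / 4) (eri 0 0 0 0 + w4) (5 / 72) (1 / 20)
      (1 / 4) (4 * (4 : ℕ) + 1 / 4) where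
  fin := inferInstance
  en := energy_link
  pt := by
    have h := pt 4
    rw [E0_four] at h
    exact h
  hw0 := by
    rw [eri_0000]
    have := w4_bounds
    linarith [this.1]
  hg1 := by norm_num
  eP i := ⟨c4, rfl⟩
  eO i j := by
    have h := inner_T c4 c4
    have h1 : ⟪jN 4 (e4 i), jN 4 (e4 j)⟫_ℂ = tin c4.1 c4.1 := h
    rw [h1, if_pos (Subsingleton.elim i j)]
    exact H761.tin_C4
  eW i := by
    have h := qd_rep_T (n := 2) c4
    have h1 : qd (repFS 4) (e4 i) = WF eri c4.1 := h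
    rw [h1]
    exact hW
  gap := by
    rintro _ ⟨c, rfl⟩
    have h := gap4 eri table_eri c.1 c.2.1 c.2.2
    have h1 : qd (repFS 4) (T 4 c) = WF eri c.1 := qd_rep_T (n := 2) c
    have h2 : ‖jN 4 (T 4 c)‖ ^ 2 = nsq c.1 := norm_J_T_sq c
    have h3 : ∀ i, ⟪jN 4 (e4 i), jN 4 (T 4 c)⟫_ℂ = tin C4 c.1 := fun i =>
      inner_T c4 c
    rw [h1, h2]
    simp only [h3, Finset.univ_unique, Finset.sum_singleton]
    exact h

end

end Vale.Agent.P363.H518
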