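import Vale.Agent.P363.R2.h518.StarFinal
import Vale.Agent.P363.H849.Hydrogen

/-!
# The one-body input, and STAR without hypotheses
-/

namespace Vale.Agent.P363.H518

open MeasureTheory Filter Topology
open Vale.Agent.P363.Stmt Vale.Agent.P363.R.Sob Vale.Agent.P363.R.Top
open scoped ENNReal ComplexConjugate ContDiff

noncomputable section

theorem coef_corb (a : Fin 5) (f : R3 → ℂ) :
    coef volume (corb a) f = ∫ x, (orb a x : ℂ) * f x := by
  unfold coef corb
  congr 1; funext x
  rw [Complex.conj_ofReal]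

theorem coef_corb_corb (a b : Fin 5) :
    coef volume (corb a) (corb b) = if a = b then 1 else 0 := by
  rw [coef_corb]
  have h := H849.orb_orthonormal a b
  have h1 : ∫ x, (orb a x : ℂ) * corb b x = ((∫ x, orb a x * orb b x : ℝ) : ℂ) := by
    rw [← integral_complex_ofReal]
    congr 1; funext x
    unfold corb
    push_cast; rfl
  rw [h1, h]
  split_ifs <;> simp

/-- the one-body hydrogen inequality in the form used by STAR. -/
theorem hydro : Hydro where
  mem a := (H849.orb_memLp a).ofReal
  one a := by rw [coef_corb_corb, if_pos rfl]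
  orth a b h := by rw [coef_corb_corb, if_neg h]
  ineq f g hf hg hfg := by
    have h := H849.hydrogen_gap hf hg hfg
    simp only [coef_corb]
    refine h.trans (le_of_eq ?_)
    congr 2
    funext x
    rw [div_eq_inv_mul]

/-- **STAR**, no hypotheses. -/
theorem starU {N : ℕ} (Ψ : ElectronState N) :
    (E0 N + 5 / 72) * normSq Ψ - (5 / 72) * pSq Ψ ≤ energy (pot 0) Ψ := star' hydro Ψ

theorem pSq_leU {N : ℕ} (Ψ : ElectronState N) : pSq Ψ ≤ normSq Ψ := pSq_le hydro Ψ

theorem energy_geU {N : ℕ} (Ψ : ElectronState N) : E0 N * normSq Ψ ≤ energy (pot 0) Ψ :=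
  energy_ge hydro Ψ

theorem perp_leU {N : ℕ} (Ψ : ElectronState N) :
    (5 / 72) * (normSq Ψ - pSq Ψ) ≤ energy (pot 0) Ψ - E0 N * normSq Ψ := perp_le hydro Ψ

end

end Vale.Agent.P363.H518
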