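import Vale.Agent.P363.R2.h518.Star

/-!
# Block B2: STAR, the gap of the noninteracting `N`-electron atom
-/

namespace Vale.Agent.P363.H518

open MeasureTheory Filter Topology
open Vale.Agent.P363.Stmt Vale.Agent.P363.R.Sob Vale.Agent.P363.H382 Vale.Agent.P363.R.Top
open scoped ENNReal ComplexConjugate ContDiff

set_option linter.unusedSectionVars false

noncomputable section

/-- ground state energy of the noninteracting atom with `N` electrons, `2 ≤ N ≤ 10`. -/
def E0 (N : ℕ) : ℝ := -1 - ((N : ℝ) - 2) / 8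

/-- coefficient of a state on a product of hydrogen spin-orbitals. -/
def cJ {N : ℕ} (Ψ : ElectronState N) (J : Fin N → Fin 5 × Fin 2) : ℂ :=
  ∫ x : Conf N, ((∏ i, orb (J i).1 (x i) : ℝ) : ℂ) * Ψ.amp (fun i => (J i).2) x

/-- index tuples with exactly two `1s` factors -/
def pat (N : ℕ) : Finset (Fin N → Fin 5 × Fin 2) :=
  Finset.univ.filter fun J => (Finset.univ.filter fun i => (J i).1 = 0).card = 2

/-- `∑_J |c_J|²` over the tuples with exactly two `1s` factors: squared norm of the projection of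
the state on the noninteracting ground space. -/
def pSq {N : ℕ} (Ψ : ElectronState N) : ℝ := ∑ J ∈ pat N, ‖cJ Ψ J‖ ^ 2

section comb

variable {κ : Type}

/-- is it the `1s` index? -/
def is1 : Fin 5 ⊕ κ → Bool := Sum.elim (fun a => decide (a = 0)) (fun _ => false)

theorem is1_eq {b : Fin 5 ⊕ κ} (h : is1 b = true) : b = Sum.inl 0 := by
  rcases b with a | k
  · simp only [is1, Sum.elim_inl, decide_eq_true_eq] at h
    rw [h]
  · simp [is1] at h

theorem wt_eq (b : Fin 5 ⊕ κ) : wt b = -(1 / 8) - (3 / 8) * (if is1 b = true then 1 else 0) +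
    (5 / 72) * (if b.isRight = true then 1 else 0) := by
  rcases b with a | k
  · simp only [wt, Sum.elim_inl, orbE, is1, Sum.isRight_inl, decide_eq_true_eq,
      Bool.false_eq_true, if_false]
    split_ifs <;> norm_num
  · simp only [wt, Sum.elim_inr, Sum.isRight_inr, is1, if_true]
    norm_num

/-- ground pattern -/
def good {N : ℕ} (I : Fin N → Fin 5 ⊕ κ) : Prop :=
  (Finset.univ.filter fun i => is1 (I i) = true).card = 2 ∧ ∀ i, (I i).isRight = false

open Classical in
theorem comb {N : ℕ} (I : Fin N → Fin 5 ⊕ κ) (s : Fin N → Fin 2)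
    (hinj : Function.Injective fun i => (I i, s i)) :
    E0 N + 5 / 72 - (5 / 72) * (if good I then 1 else 0) ≤ ∑ i, wt (I i) := by
  have h1 : ∑ i, wt (I i) = -(N : ℝ) / 8 -
      (3 / 8) * ((Finset.univ.filter fun i => is1 (I i) = true).card : ℝ) +
      (5 / 72) * ((Finset.univ.filter fun i => (I i).isRight = true).card : ℝ) := by
    simp only [wt_eq, Finset.sum_add_distrib, Finset.sum_sub_distrib, ← Finset.mul_sum,
      Finset.sum_boole, Finset.sum_neg_distrib, Finset.sum_const, Finset.card_univ,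
      Fintype.card_fin, nsmul_eq_mul]
    ring
  have hA : (Finset.univ.filter fun i => is1 (I i) = true).card ≤ 2 := by
    have h2 : (Finset.univ.filter fun i => is1 (I i) = true).card ≤
        (Finset.univ : Finset (Fin 2)).card := by
      apply Finset.card_le_card_of_injOn s (fun _ _ => Finset.mem_univ _)
      intro i hi j hj hij
      have hi' := is1_eq (Finset.mem_filter.1 hi).2
      have hj' := is1_eq (Finset.mem_filter.1 hj).2
      apply hinj
      simp only [Prod.mk.injEq]
      exact ⟨hi'.trans hj'.symm, hij⟩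
    simpa using h2
  rw [h1, E0]
  set A := (Finset.univ.filter fun i => is1 (I i) = true).card with hAdef
  set C := (Finset.univ.filter fun i => (I i).isRight = true).card with hCdef
  have hC0 : (0 : ℝ) ≤ C := Nat.cast_nonneg _
  by_cases hg : good I
  · rw [if_pos hg]
    have hA2 : A = 2 := hg.1
    rw [hA2]
    push_cast
    linarith
  · rw [if_neg hg]
    by_cases hA2 : A = 2
    · have hC1 : 1 ≤ C := by
        by_contra hC
        apply hg
        refine ⟨hA2, fun i => ?_⟩
        have hC' : C = 0 := by omega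
        rw [hCdef, Finset.card_eq_zero, Finset.filter_eq_empty_iff] at hC'
        have := hC' (Finset.mem_univ i)
        simpa using this
      have hC2 : (1 : ℝ) ≤ C := by exact_mod_cast hC1
      rw [hA2]
      push_cast
      linarith
    · have hA1 : (A : ℝ) ≤ 1 := by
        have : A ≤ 1 := by omega
        exact_mod_cast this
      linarith

end comb

section main

variable {κ : Type} [Countable κ] {u : Fin 5 ⊕ κ → R3 → ℂ}

/-- Pauli principle for the coefficients -/
theorem cI_eq_zero {N : ℕ} (Ψ : ElectronState N) (s : Fin N → Fin 2) (I : Fin N → Fin 5 ⊕ κ)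
    (hni : ¬ Function.Injective fun i => (I i, s i)) : cI u (Ψ.amp s) I = 0 := by
  rw [Function.not_injective_iff] at hni
  obtain ⟨i, j, hij, hne⟩ := hni
  simp only [Prod.mk.injEq] at hij
  set σ := Equiv.swap i j with hσ
  have hI : I ∘ σ = I := by
    funext l
    simp only [Function.comp_apply, hσ]
    rcases eq_or_ne l i with h | h
    · subst h; rw [Equiv.swap_apply_left]; exact hij.1.symm
    · rcases eq_or_ne l j with h' | h'
      · subst h'; rw [Equiv.swap_apply_right]; exact hij.1
      · rw [Equiv.swap_apply_of_ne_of_ne h h']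
  have hs : s ∘ σ = s := by
    funext l
    simp only [Function.comp_apply, hσ]
    rcases eq_or_ne l i with h | h
    · subst h; rw [Equiv.swap_apply_left]; exact hij.2.symm
    · rcases eq_or_ne l j with h' | h'
      · subst h'; rw [Equiv.swap_apply_right]; exact hij.2
      · rw [Equiv.swap_apply_of_ne_of_ne h h']
  have h1 := coef_perm (μ := (volume : Measure R3)) (u := u) σ I (Ψ.amp s)
  rw [hI] at h1
  have h2 : ∀ᵐ x : Conf N, Ψ.amp s (x ∘ σ.symm) = - Ψ.amp s x := by
    have h3 : ∀ᵐ x : Conf N, Ψ.amp (s ∘ σ) (x ∘ σ) = ((Equiv.Perm.sign σ : ℤ) : ℂ) * Ψ.amp s x :=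
      Ψ.antisymm σ s
    have h4 : σ.symm = σ := Equiv.symm_swap i j
    rw [h4]
    filter_upwards [h3] with x hx
    rw [hs] at hx
    rw [hx, hσ, Equiv.Perm.sign_swap hne]
    simp
  have h3 : coef (piM (volume : Measure R3) N) (prodFun u I) (fun x => Ψ.amp s (x ∘ σ.symm)) =
      - coef (piM (volume : Measure R3) N) (prodFun u I) (Ψ.amp s) := by
    unfold coef
    rw [← integral_neg]
    apply integral_congr_ae
    have h2' : ∀ᵐ x ∂(piM (volume : Measure R3) N), Ψ.amp s (x ∘ σ.symm) = - Ψ.amp s x := h2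
    filter_upwards [h2'] with x hx
    rw [hx]; ring
  rw [h3] at h1
  have h4 : coef (piM (volume : Measure R3) N) (prodFun u I) (Ψ.amp s) = 0 := by
    have : (2 : ℂ) * coef (piM (volume : Measure R3) N) (prodFun u I) (Ψ.amp s) = 0 := by
      linear_combination (-1 : ℂ) * h1
    simpa using this
  exact h4

theorem cJ_eq {N : ℕ} (hul : ∀ a, u (Sum.inl a) = corb a) (Ψ : ElectronState N)
    (J : Fin N → Fin 5 × Fin 2) :
    cJ Ψ J = cI u (Ψ.amp fun i => (J i).2) (fun i => Sum.inl (J i).1) := by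
  unfold cJ cI coef
  congr 1
  funext x
  congr 1
  unfold prodFun
  simp only [hul, corb]
  rw [map_prod]
  push_cast
  refine Finset.prod_congr rfl fun i _ => ?_
  rw [Complex.conj_ofReal]

open Classical in
/-- lower bound of the weighted sum of the coefficients of one spin component -/
theorem comp_bound (hu : IsONB volume u) {N : ℕ} (Ψ : ElectronState N) (s : Fin N → Fin 2) :
    (E0 N + 5 / 72) * (∫ x, ‖Ψ.amp s x‖ ^ 2) - (5 / 72) *
      ∑' I, (if good I then ‖cI u (Ψ.amp s) I‖ ^ 2 else 0) ≤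
      ∑ i, ∑' I, wt (I i) * ‖cI u (Ψ.amp s) I‖ ^ 2 := by
  have hf : MemLp (Ψ.amp s) 2 (volume : Measure (Conf N)) := Ψ.amp_memLp s
  have hS := summable_cI hu hf
  have hG : Summable (fun I => if good I then ‖cI u (Ψ.amp s) I‖ ^ 2 else 0) := by
    apply Summable.of_nonneg_of_le _ _ hS.summable
    · intro I; split_ifs <;> positivity
    · intro I; split_ifs
      · exact le_rfl
      · positivity
  rw [← Summable.tsum_finsetSum (fun i _ => summable_wt_cI hu hf i), ← hS.tsum_eq, ← tsum_mul_left,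
    ← tsum_mul_left, ← (hS.summable.mul_left _).tsum_sub (hG.mul_left _)]
  apply ((hS.summable.mul_left _).sub (hG.mul_left _)).tsum_le_tsum
  · intro I
    rw [← Finset.sum_mul]
    by_cases hinj : Function.Injective fun i => (I i, s i)
    · have h1 := comb I s hinj
      have h2 : 0 ≤ ‖cI u (Ψ.amp s) I‖ ^ 2 := sq_nonneg _
      have h3 := mul_le_mul_of_nonneg_right h1 h2
      refine le_trans (le_of_eq ?_) h3
      split_ifs <;> ring
    · rw [cI_eq_zero Ψ s I hinj]
      simp
  · exact summable_sum fun i _ => summable_wt_cI hu hf i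

open Classical in
/-- the finite sum over the ground pattern -/
theorem tsum_good (hul : ∀ a, u (Sum.inl a) = corb a) {N : ℕ} (Ψ : ElectronState N) :
    ∑ s, ∑' I, (if good I then ‖cI u (Ψ.amp s) I‖ ^ 2 else 0) = pSq Ψ := by
  have h1 : ∀ s : Fin N → Fin 2, ∑' I, (if good I then ‖cI u (Ψ.amp s) I‖ ^ 2 else 0) =
      ∑ A : Fin N → Fin 5, if (Finset.univ.filter fun i => A i = 0).card = 2 then
        ‖cI u (Ψ.amp s) (fun i => Sum.inl (A i))‖ ^ 2 else 0 := by
    intro s
    have hinj : Function.Injective (fun (A : Fin N → Fin 5) (i : Fin N) =>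
        (Sum.inl (A i) : Fin 5 ⊕ κ)) := by
      intro A B hAB
      funext i
      exact Sum.inl_injective (congrFun hAB i)
    have hsupp : Function.support (fun I : Fin N → Fin 5 ⊕ κ =>
        (if good I then ‖cI u (Ψ.amp s) I‖ ^ 2 else 0)) ⊆ Set.range (fun (A : Fin N → Fin 5)
          (i : Fin N) => (Sum.inl (A i) : Fin 5 ⊕ κ)) := by
      intro I hI
      rw [Function.mem_support] at hI
      have hg : good I := by
        by_contra hg
        exact hI (if_neg hg)
      have h2 : ∀ i, ∃ a, I i = Sum.inl a := by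
        intro i
        have := hg.2 i
        rcases hIi : I i with a | k
        · exact ⟨a, rfl⟩
        · rw [hIi] at this; simp at this
      choose A hA using h2
      exact ⟨A, funext fun i => (hA i).symm⟩
    rw [← hinj.tsum_eq hsupp, tsum_fintype]
    refine Finset.sum_congr rfl fun A _ => ?_
    have h3 : good (fun i => (Sum.inl (A i) : Fin 5 ⊕ κ)) ↔
        (Finset.univ.filter fun i => A i = 0).card = 2 := by
      unfold good
      simp [is1]
    simp only [h3]
  simp only [h1]
  unfold pSq pat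
  rw [Finset.sum_filter]
  rw [← (Equiv.arrowProdEquivProdArrow (Fin N) (fun _ => Fin 5) (fun _ => Fin 2)).symm.sum_comp]
  rw [Fintype.sum_prod_type]
  rw [Finset.sum_comm]
  refine Finset.sum_congr rfl fun A _ => ?_
  refine Finset.sum_congr rfl fun s _ => ?_
  rw [cJ_eq hul]
  rfl

end main

/-- **STAR**: the gap of the noninteracting atom with `N` electrons. -/
theorem star (H : Hydro) {N : ℕ} (Ψ : ElectronState N)
    (hint : ∀ s i, Integrable (fun x : Conf N => ‖x i‖⁻¹ * ‖Ψ.amp s x‖ ^ 2)) :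
    (E0 N + 5 / 72) * normSq Ψ - (5 / 72) * pSq Ψ ≤ energy (pot 0) Ψ := by
  classical
  obtain ⟨κ, hκ, u, hu, hul⟩ := exists_isONB_extension (μ := (volume : Measure R3)) corb H.mem
    H.one H.orth
  -- the energy as a sum over the electrons
  have hen : energy (pot 0) Ψ = ∑ s, ∑ i, ((1 / 2) * (∑ k, ∫ x, ‖Ψ.grad s i k x‖ ^ 2) -
      ∫ x, ‖x i‖⁻¹ * ‖Ψ.amp s x‖ ^ 2) := by
    unfold energy
    simp only [intR_eq]
    rw [Finset.mul_sum, ← Finset.sum_add_distrib]
    refine Finset.sum_congr rfl fun s _ => ?_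
    rw [Finset.sum_sub_distrib, Finset.mul_sum]
    have h1 : ∫ x, pot 0 x * ‖Ψ.amp s x‖ ^ 2 = ∑ i, ∫ x, -(‖x i‖⁻¹ * ‖Ψ.amp s x‖ ^ 2) := by
      have hneg : ∀ i ∈ Finset.univ, Integrable (fun x : Conf N => -(‖x i‖⁻¹ * ‖Ψ.amp s x‖ ^ 2)) :=
        fun i _ => (hint s i).neg
      rw [← integral_finsetSum _ hneg]
      congr 1
      funext x
      unfold pot
      rw [zero_mul, add_zero, Finset.sum_mul]
      refine Finset.sum_congr rfl fun i _ => ?_
      rw [one_div]; ring
    rw [h1]
    simp only [integral_neg, Finset.sum_neg_distrib]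
    ring
  rw [hen]
  have h2 : ∀ s i, ∑' I, wt (I i) * ‖cI u (Ψ.amp s) I‖ ^ 2 ≤
      (1 / 2) * (∑ k, ∫ x, ‖Ψ.grad s i k x‖ ^ 2) - ∫ x, ‖x i‖⁻¹ * ‖Ψ.amp s x‖ ^ 2 := by
    intro s i
    cases N with
    | zero => exact i.elim0
    | succ n =>
      exact electron_ineq H hu hul i (Ψ.amp_memLp s) (fun k => Ψ.grad_memLp s i k)
        (fun k => isWeakDeriv_iff.1 (Ψ.grad_weak s i k)) (hint s i)
  have h3 : ∑ s, ((E0 N + 5 / 72) * (∫ x, ‖Ψ.amp s x‖ ^ 2) - (5 / 72) *
      ∑' I, (if good I then ‖cI u (Ψ.amp s) I‖ ^ 2 else 0)) ≤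
      ∑ s, ∑ i, ((1 / 2) * (∑ k, ∫ x, ‖Ψ.grad s i k x‖ ^ 2) -
      ∫ x, ‖x i‖⁻¹ * ‖Ψ.amp s x‖ ^ 2) :=
    Finset.sum_le_sum fun s _ => (comp_bound hu Ψ s).trans
      (Finset.sum_le_sum fun i _ => h2 s i)
  refine le_trans (le_of_eq ?_) h3
  rw [Finset.sum_sub_distrib, ← Finset.mul_sum, ← Finset.mul_sum, tsum_good hul Ψ]
  rfl

end

end Vale.Agent.P363.H518
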