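import Mathlib.LinearAlgebra.Dimension.Finite
import Mathlib.LinearAlgebra.FiniteDimensional.Lemmas
import Mathlib.LinearAlgebra.BilinearMap
import Mathlib.Tactic

/-!
# Block B-lin: the abstract flag / Bessel lemma and the min-max (6-dimensional) argument

Everything is formulated for positive semidefinite symmetric bilinear forms on a real vector
space; no positive definiteness, no completeness is used.
-/

namespace Vale.Agent.P363.H518

open Module

section Basic

variable {V : Type*} [AddCommGroup V] [Module ℝ V]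

/-- symmetric positive semidefinite bilinear form -/
structure PSD (b : V →ₗ[ℝ] V →ₗ[ℝ] ℝ) : Prop where
  symm : ∀ f g, b f g = b g f
  nonneg : ∀ f, 0 ≤ b f f

namespace PSD

variable {b : V →ₗ[ℝ] V →ₗ[ℝ] ℝ}

theorem add_sq (hb : PSD b) (f g : V) : b (f + g) (f + g) = b f f + 2 * b f g + b g g := by
  simp only [map_add, LinearMap.add_apply]
  rw [hb.symm g f]; ring

theorem sub_sq (hb : PSD b) (f g : V) : b (f - g) (f - g) = b f f - 2 * b f g + b g g := by
  simp only [map_sub, LinearMap.sub_apply]
  rw [hb.symm g f]; ring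

/-- vectors of zero length are in the radical -/
theorem eq_zero_of_self (hb : PSD b) {g : V} (hg : b g g = 0) (f : V) : b f g = 0 := by
  by_contra h
  -- b (f - t g) (f - t g) = b f f - 2 t b f g >= 0 for every t
  have key : ∀ t : ℝ, 0 ≤ b f f - 2 * t * b f g := by
    intro t
    have := hb.nonneg (f - t • g)
    rw [hb.sub_sq] at this
    simp only [map_smul, LinearMap.smul_apply, smul_eq_mul, hg, mul_zero, add_zero] at this
    linarith
  have h1 := key ((b f f + 1) / (2 * b f g))
  have h2 : 2 * ((b f f + 1) / (2 * b f g)) * b f g = b f f + 1 := by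
    field_simp
  rw [h2] at h1
  linarith

/-- `b`-orthogonal projections onto spans of finite sets exist. -/
theorem exists_proj_span (hb : PSD b) (S : Finset V) (f : V) :
    ∃ w ∈ Submodule.span ℝ (S : Set V), ∀ z ∈ Submodule.span ℝ (S : Set V), b (f - w) z = 0 := by
  classical
  induction S using Finset.induction_on generalizing f with
  | empty =>
    refine ⟨0, Submodule.zero_mem _, fun z hz => ?_⟩
    simp only [Finset.coe_empty, Submodule.span_empty, Submodule.mem_bot] at hz
    simp [hz]
  | insert e S _ ih =>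
    obtain ⟨pe, hpe, hpe'⟩ := ih e
    obtain ⟨w0, hw0, hw0'⟩ := ih f
    have hle : Submodule.span ℝ (S : Set V) ≤ Submodule.span ℝ ((insert e S : Finset V) : Set V) :=
      Submodule.span_mono (by simp)
    have he : e ∈ Submodule.span ℝ ((insert e S : Finset V) : Set V) :=
      Submodule.subset_span (by simp)
    have hmem : ∀ z ∈ Submodule.span ℝ ((insert e S : Finset V) : Set V),
        ∃ c : ℝ, ∃ s ∈ Submodule.span ℝ (S : Set V), z = c • e + s := by
      intro z hz
      rw [Finset.coe_insert, Submodule.mem_span_insert] at hz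
      obtain ⟨c, s, hs, rfl⟩ := hz
      exact ⟨c, s, hs, rfl⟩
    set e' := e - pe with he'
    by_cases h0 : b e' e' = 0
    · refine ⟨w0, hle hw0, fun z hz => ?_⟩
      obtain ⟨c, s, hs, rfl⟩ := hmem z hz
      have h1 : b (f - w0) e = 0 := by
        have : e = e' + pe := by rw [he']; abel
        rw [this, map_add, hb.eq_zero_of_self h0, hw0' pe hpe, add_zero]
      rw [map_add, map_smul, h1, hw0' s hs]; simp
    · refine ⟨w0 + (b f e' / b e' e') • e',
        Submodule.add_mem _ (hle hw0) (Submodule.smul_mem _ _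
          (Submodule.sub_mem _ he (hle hpe))), fun z hz => ?_⟩
      obtain ⟨c, s, hs, rfl⟩ := hmem z hz
      have h1 : ∀ s ∈ Submodule.span ℝ (S : Set V),
          b (f - (w0 + (b f e' / b e' e') • e')) s = 0 := by
        intro s hs
        have : f - (w0 + (b f e' / b e' e') • e') = (f - w0) - (b f e' / b e' e') • e' := by abel
        rw [this, map_sub, LinearMap.sub_apply, hw0' s hs, map_smul, LinearMap.smul_apply,
          hpe' s hs]
        simp
      have h2 : b (f - (w0 + (b f e' / b e' e') • e')) e' = 0 := by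
        have h3 : b w0 e' = 0 := by rw [hb.symm]; exact hpe' w0 hw0
        simp only [map_sub, map_add, map_smul, LinearMap.sub_apply, LinearMap.add_apply,
          LinearMap.smul_apply, smul_eq_mul, h3]
        field_simp
        ring
      have h4 : b (f - (w0 + (b f e' / b e' e') • e')) e = 0 := by
        have : e = e' + pe := by rw [he']; abel
        rw [this, map_add, h2, h1 pe hpe, add_zero]
      rw [map_add, map_smul, h4, h1 s hs]; simp

/-- `b`-orthogonal projections onto finitely generated subspaces exist. -/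
theorem exists_proj (hb : PSD b) {W : Submodule ℝ V} (hW : W.FG) (f : V) :
    ∃ w ∈ W, ∀ z ∈ W, b (f - w) z = 0 := by
  obtain ⟨S, rfl⟩ := hW
  exact hb.exists_proj_span S f

/-- Pythagoras -/
theorem pyth (hb : PSD b) {f w : V} (h : b (f - w) w = 0) :
    b f f = b w w + b (f - w) (f - w) := by
  have : f = w + (f - w) := by abel
  conv_lhs => rw [this]
  rw [hb.add_sq, hb.symm w (f - w), h]; ring

/-- best approximation -/
theorem best (hb : PSD b) {W : Submodule ℝ V} {f w : V} (hw : w ∈ W)
    (h : ∀ z ∈ W, b (f - w) z = 0) {w0 : V} (hw0 : w0 ∈ W) :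
    b (f - w) (f - w) ≤ b (f - w0) (f - w0) := by
  have h1 : f - w0 = (w - w0) + (f - w) := by abel
  rw [h1, hb.add_sq, hb.symm (w - w0) (f - w), h _ (W.sub_mem hw hw0)]
  have := hb.nonneg (w - w0)
  linarith

end PSD

/-- **Flag lemma.** `a`, `b` positive semidefinite, `W 0 = ⊥`, `W D` increasing and finitely
generated, `a f w = k (D+1) b f w + b f u` for `w ∈ W (D+1)` with some `u ∈ W D` (depending on
`w` only), the union of the `W D` dense for the form `b`.
Then `a f f ≥ k (m+1) b f f` for every `f` that is `b`-orthogonal to `W m`. -/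
theorem flag_lemma {a b : V →ₗ[ℝ] V →ₗ[ℝ] ℝ} (ha : PSD a) (hb : PSD b)
    (W : ℕ → Submodule ℝ V) (hW0 : W 0 = ⊥) (hmono : Monotone W) (hfg : ∀ D, (W D).FG)
    {k : ℝ} (hk : 0 ≤ k)
    (hK : ∀ D, ∀ w ∈ W (D + 1), ∃ u ∈ W D, ∀ f, a f w = k * (D + 1) * b f w + b f u)
    (m : ℕ) {f : V} (hf : ∀ w ∈ W m, b f w = 0)
    (hdense : ∀ ε > (0 : ℝ), ∃ D, ∃ w ∈ W D, b (f - w) (f - w) < ε) :
    k * (m + 1) * b f f ≤ a f f := by
  -- vectors orthogonal to `W D` are `a`-orthogonal to `W D`
  have horth : ∀ D, ∀ g : V, (∀ z ∈ W D, b g z = 0) → ∀ w ∈ W D, a g w = 0 := by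
    intro D g hg w hw
    cases D with
    | zero =>
      rw [hW0, Submodule.mem_bot] at hw
      simp [hw]
    | succ D =>
      obtain ⟨u, hu, hau⟩ := hK D w hw
      rw [hau, hg w hw, hg u (hmono (Nat.le_succ D) hu)]
      ring
  -- the inequality on `W (m + j)`
  have main : ∀ j : ℕ, ∀ w ∈ W (m + j), (∀ z ∈ W m, b w z = 0) →
      k * (m + 1) * b w w ≤ a w w := by
    intro j
    induction j with
    | zero =>
      intro w hw hw'
      rw [hw' w hw, mul_zero]
      exact ha.nonneg w
    | succ j ih =>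
      intro w hw hw'
      obtain ⟨w', hw'1, hw'2⟩ := hb.exists_proj (hfg (m + j)) w
      have hu : w - w' ∈ W (m + j + 1) :=
        (W (m + j + 1)).sub_mem hw (hmono (Nat.le_succ _) hw'1)
      have h1 : ∀ z ∈ W m, b w' z = 0 := by
        intro z hz
        have h2 := hw'2 z (hmono (Nat.le_add_right m j) hz)
        rw [map_sub, LinearMap.sub_apply, hw' z hz] at h2
        linarith
      have h2 := ih w' hw'1 h1
      have h3 : a (w - w') w' = 0 := horth (m + j) _ hw'2 w' hw'1
      have h4 := hb.pyth (hw'2 w' hw'1)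
      have h5 := ha.pyth h3
      obtain ⟨u, hu1, hu2⟩ := hK (m + j) (w - w') hu
      have h6 := hu2 (w - w')
      rw [hw'2 u hu1, add_zero] at h6
      have h7 : 0 ≤ b (w - w') (w - w') := hb.nonneg _
      rw [h4, h5, h6]
      push_cast
      have h8 : 0 ≤ k * j * b (w - w') (w - w') := by positivity
      nlinarith
  -- conclusion by density
  have h0 : ∀ ε > (0 : ℝ), k * (m + 1) * b f f ≤ a f f + k * (m + 1) * ε := by
    intro ε hε
    obtain ⟨D, w0, hw0, hlt⟩ := hdense ε hε
    obtain ⟨w, hw1, hw2⟩ := hb.exists_proj (hfg (m + D)) f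
    have hw0' : w0 ∈ W (m + D) := hmono (Nat.le_add_left D m) hw0
    have h1 := hb.best hw1 hw2 hw0'
    have h2 : ∀ z ∈ W m, b w z = 0 := by
      intro z hz
      have h2 := hw2 z (hmono (Nat.le_add_right m D) hz)
      rw [map_sub, LinearMap.sub_apply, hf z hz] at h2
      linarith
    have h3 := main D w hw1 h2
    have h4 : a (f - w) w = 0 := horth _ _ hw2 w hw1
    have h5 := hb.pyth (hw2 w hw1)
    have h6 := ha.pyth h4
    have h7 := ha.nonneg (f - w)
    have h8 : 0 ≤ k * (m + 1) := by positivity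
    have h9 : k * (m + 1) * b (f - w) (f - w) ≤ k * (m + 1) * ε :=
      mul_le_mul_of_nonneg_left (h1.trans hlt.le) h8
    rw [h5, h6]
    nlinarith
  have h8 : 0 ≤ k * (m + 1) := by positivity
  by_contra hcon
  push Not at hcon
  rcases h8.eq_or_lt with h | h
  · have := h0 1 one_pos
    rw [← h] at this
    rw [← h] at hcon
    linarith
  · have := h0 ((k * (m + 1) * b f f - a f f) / (2 * (k * (m + 1)))) (by
      apply div_pos (by linarith) (by linarith))
    have h9 : k * (m + 1) * ((k * (m + 1) * b f f - a f f) / (2 * (k * (m + 1)))) =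
        (k * (m + 1) * b f f - a f f) / 2 := by
      generalize k * ((m : ℝ) + 1) = c at h ⊢
      field_simp
    rw [h9] at this
    linarith

/-- **Min-max argument.** `h` = energy form, `c` = `L²` inner product, `s i` orthonormal with
`h f (s i) = e i * c f (s i)`, `e i < e3`; if `h f f ≥ e3 * c f f` on the common kernel of `m`
functionals, `m ≤ card ι`, then `h f f ≥ ∑ e i (c f (s i))² + e3 (c f f - ∑ (c f (s i))²)`
for all `f`. -/
theorem minmax_lemma {h c : V →ₗ[ℝ] V →ₗ[ℝ] ℝ} (hh : ∀ f g, h f g = h g f)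
    (hc : ∀ f g, c f g = c g f)
    {ι : Type*} [Fintype ι] [DecidableEq ι] (s : ι → V) (e : ι → ℝ) (e3 : ℝ)
    (hs : ∀ i j, c (s i) (s j) = if i = j then 1 else 0)
    (he : ∀ i f, h f (s i) = e i * c f (s i)) (he3 : ∀ i, e i < e3)
    {κ : Type*} [Fintype κ] (l : κ → V →ₗ[ℝ] ℝ) (hcard : Fintype.card κ ≤ Fintype.card ι)
    (hl : ∀ f, (∀ j, l j f = 0) → e3 * c f f ≤ h f f) (f : V) :
    ∑ i, e i * (c f (s i)) ^ 2 + e3 * (c f f - ∑ i, (c f (s i)) ^ 2) ≤ h f f := by
  set g := f - ∑ i, c f (s i) • s i with hg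
  have hgs : ∀ j, c g (s j) = 0 := by
    intro j
    rw [hg, map_sub, LinearMap.sub_apply, map_sum, LinearMap.sum_apply]
    simp only [map_smul, LinearMap.smul_apply, smul_eq_mul, hs]
    simp
  have hgs' : ∀ j, c (s j) g = 0 := fun j => by rw [hc, hgs]
  have hhgs : ∀ j, h g (s j) = 0 := fun j => by rw [he, hgs, mul_zero]
  have hhgs' : ∀ j, h (s j) g = 0 := fun j => by rw [hh, hhgs]
  -- expansion of forms on `∑ α i s i + β g`
  have hexp : ∀ (α : ι → ℝ) (β : ℝ),
      c (∑ i, α i • s i + β • g) (∑ i, α i • s i + β • g) = ∑ i, (α i) ^ 2 + β ^ 2 * c g g ∧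
      h (∑ i, α i • s i + β • g) (∑ i, α i • s i + β • g) =
        ∑ i, e i * (α i) ^ 2 + β ^ 2 * h g g := by
    intro α β
    have hss : ∀ i j, h (s i) (s j) = if i = j then e j else 0 := by
      intro i j; rw [he, hs]; split_ifs <;> simp
    constructor
    · simp only [map_add, map_sum, map_smul, LinearMap.add_apply, LinearMap.sum_apply,
        LinearMap.smul_apply, smul_eq_mul, hs, hgs, hgs']
      simp only [mul_ite, mul_one, mul_zero, Finset.sum_ite_eq',
        Finset.mem_univ, if_true, Finset.sum_const_zero, add_zero, zero_add]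
      congr 1
      · exact Finset.sum_congr rfl fun i _ => by ring
      · ring
    · simp only [map_add, map_sum, map_smul, LinearMap.add_apply, LinearMap.sum_apply,
        LinearMap.smul_apply, smul_eq_mul, hss, hhgs, hhgs']
      simp only [mul_ite, mul_zero, Finset.sum_ite_eq',
        Finset.mem_univ, if_true, Finset.sum_const_zero, add_zero, zero_add]
      congr 1
      · exact Finset.sum_congr rfl fun i _ => by ring
      · ring
  have hQ : e3 * c g g ≤ h g g := by
    by_contra hcon
    push Not at hcon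
    -- the linear map `(α, β) ↦ (l j (∑ α i s i + β g))`
    let L : ((ι → ℝ) × ℝ) →ₗ[ℝ] (κ → ℝ) :=
      LinearMap.pi fun j => (l j).comp
        ((Fintype.linearCombination ℝ s).comp (LinearMap.fst ℝ (ι → ℝ) ℝ) +
          (LinearMap.toSpanSingleton ℝ V g).comp (LinearMap.snd ℝ (ι → ℝ) ℝ))
    have hker : LinearMap.ker L ≠ ⊥ := by
      apply LinearMap.ker_ne_bot_of_finrank_lt
      simp only [Module.finrank_fintype_fun_eq_card, Module.finrank_prod, Module.finrank_self]
      omega
    obtain ⟨⟨α, β⟩, hker1, hne⟩ := (Submodule.ne_bot_iff _).1 hker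
    have hzero : ∀ j, l j (∑ i, α i • s i + β • g) = 0 := by
      intro j
      have := congrFun (LinearMap.mem_ker.1 hker1) j
      simpa [L, Fintype.linearCombination_apply, LinearMap.toSpanSingleton_apply] using this
    have h1 := hl _ hzero
    obtain ⟨h2, h3⟩ := hexp α β
    rw [h2, h3] at h1
    have h4 : ∑ i, e i * (α i) ^ 2 ≤ e3 * ∑ i, (α i) ^ 2 := by
      rw [Finset.mul_sum]
      exact Finset.sum_le_sum fun i _ => mul_le_mul_of_nonneg_right (he3 i).le (sq_nonneg _)
    have h5 : β ^ 2 * (h g g - e3 * c g g) ≤ 0 :=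
      mul_nonpos_of_nonneg_of_nonpos (sq_nonneg _) (by linarith)
    have h6 : β ^ 2 * (h g g - e3 * c g g) = 0 := by nlinarith
    have hβ : β = 0 := by
      rcases mul_eq_zero.1 h6 with h | h
      · exact pow_eq_zero_iff (two_ne_zero) |>.1 h
      · exfalso; linarith
    subst hβ
    have h7 : ∑ i, (e3 - e i) * (α i) ^ 2 ≤ 0 := by
      have : ∑ i, (e3 - e i) * (α i) ^ 2 = e3 * ∑ i, (α i) ^ 2 - ∑ i, e i * (α i) ^ 2 := by
        rw [Finset.mul_sum, ← Finset.sum_sub_distrib]
        exact Finset.sum_congr rfl fun i _ => by ring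
      rw [this]
      nlinarith
    have h8 : ∀ i ∈ Finset.univ, 0 ≤ (e3 - e i) * (α i) ^ 2 := fun i _ =>
      mul_nonneg (by linarith [he3 i]) (sq_nonneg _)
    have h9 := (Finset.sum_eq_zero_iff_of_nonneg h8).1
      (le_antisymm h7 (Finset.sum_nonneg h8))
    apply hne
    have hα : α = 0 := by
      funext i
      have := h9 i (Finset.mem_univ i)
      rcases mul_eq_zero.1 this with h | h
      · exfalso; linarith [he3 i]
      · exact pow_eq_zero_iff (two_ne_zero) |>.1 h
    simp [hα]
  have hf : f = ∑ i, c f (s i) • s i + (1 : ℝ) • g := by rw [hg]; simp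
  obtain ⟨h2, h3⟩ := hexp (fun i => c f (s i)) 1
  have h4 : c f f = ∑ i, (c f (s i)) ^ 2 + c g g := by
    conv_lhs => rw [hf]
    rw [h2]; ring
  have h5 : h f f = ∑ i, e i * (c f (s i)) ^ 2 + h g g := by
    conv_lhs => rw [hf]
    rw [h3]; ring
  rw [h4, h5]
  have : e3 * (∑ i, (c f (s i)) ^ 2 + c g g - ∑ i, (c f (s i)) ^ 2) = e3 * c g g := by ring
  rw [this]
  linarith

end Basic

end Vale.Agent.P363.H518
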