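import Vale.Agent.P363.H382.Space
import Vale.Agent.P363.H382.Abs
import Vale.Agent.P363.R2.h518.StarFinal

/-!
# Bundled forms on the Hilbert space of states of finite kinetic energy
-/

namespace Vale.Agent.P363.H518

open MeasureTheory Filter Topology
open Vale.Agent.P363.Stmt Vale.Agent.P363.R.Sob Vale.Agent.P363.H382 Vale.Agent.P363.R.Top
open scoped ENNReal ComplexConjugate ContDiff

noncomputable section

variable {N : ℕ}

/-! ### kinetic form -/

/-- component map -/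
def comp (p : Idx N) : Amb N →L[ℂ] LC N := PiLp.proj 2 (fun _ : Idx N => LC N) p

@[simp] theorem comp_apply (p : Idx N) (u : Amb N) : comp p u = u p := rfl

/-- inner product pulled back along two continuous linear maps. -/
def pull {V H : Type*} [NormedAddCommGroup V] [NormedSpace ℂ V] [NormedAddCommGroup H]
    [InnerProductSpace ℂ H] (S T : V →L[ℂ] H) : V →L⋆[ℂ] V →L[ℂ] ℂ :=
  (((ContinuousLinearMap.compL ℂ V H ℂ).flip T).comp ((innerSL ℂ : H →L⋆[ℂ] H →L[ℂ] ℂ))).comp S

theorem pull_apply {V H : Type*} [NormedAddCommGroup V] [NormedSpace ℂ V]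
    [NormedAddCommGroup H] [InnerProductSpace ℂ H] (S T : V →L[ℂ] H) (u v : V) :
    pull S T u v = inner ℂ (S u) (T v) := by
  simp [pull]

theorem sum_form_apply {V : Type*} [NormedAddCommGroup V] [NormedSpace ℂ V] {ι : Type*}
    (t : Finset ι) (F : ι → V →L⋆[ℂ] V →L[ℂ] ℂ) (u v : V) :
    (∑ i ∈ t, F i) u v = ∑ i ∈ t, F i u v := by
  classical
  induction t using Finset.induction_on with
  | empty => simp
  | insert a t ha ih =>
    rw [Finset.sum_insert ha, Finset.sum_insert ha, add_apply, add_apply, ih]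

/-- kinetic form on `Amb N` -/
def kinF (N : ℕ) : Amb N →L⋆[ℂ] Amb N →L[ℂ] ℂ :=
  (1 / 2 : ℂ) • ∑ s : Spn N, ∑ i : Fin N, ∑ k : Fin 3,
    pull (comp (s, some (i, k))) (comp (s, some (i, k)))

theorem kinF_apply (u v : Amb N) : kinF N u v =
    (1 / 2 : ℂ) * ∑ s, ∑ i, ∑ k, inner ℂ (u (s, some (i, k))) (v (s, some (i, k))) := by
  simp [kinF, pull_apply]

/-! ### multiplication by `1/|p x|` -/

theorem norm_LC_sq (f : LC N) : ‖f‖ ^ 2 = ∫ x, ‖f x‖ ^ 2 := by
  have h := norm_toLp_sq (Lp.memLp f)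
  rw [Lp.toLp_coeFn] at h
  exact h

section mul

variable (p : Conf N →L[ℝ] R3) (i : Fin N)

theorem hardy_HS (hp : ∀ k, p (dir i k) = EuclideanSpace.single k 1) (s : Spn N) (u : HS N) :
    Integrable (fun x => ‖u.1 (s, none) x‖ ^ 2 / ‖p x‖ ^ 2) ∧
      ∫ x, ‖u.1 (s, none) x‖ ^ 2 / ‖p x‖ ^ 2 ≤
        4 * ∑ k, ‖u.1 (s, some (i, k))‖ ^ 2 := by
  have h := hardy (μ := (volume : Measure (Conf N))) p 0 (fun k => dir i k) hp
    (Lp.memLp (u.1 (s, none))) (fun k => Lp.memLp (u.1 (s, some (i, k))))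
    (fun k => u.2 s i k)
  simp only [sub_zero] at h
  refine ⟨h.1, h.2.trans (le_of_eq ?_)⟩
  congr 1
  exact Finset.sum_congr rfl fun k _ => (norm_LC_sq _).symm

theorem memLp_mulInv (hp : ∀ k, p (dir i k) = EuclideanSpace.single k 1) (s : Spn N) (u : HS N) :
    MemLp (fun x => ((‖p x‖⁻¹ : ℝ) : ℂ) * u.1 (s, none) x) 2 (volume : Measure (Conf N)) := by
  have hm : AEStronglyMeasurable (fun x => ((‖p x‖⁻¹ : ℝ) : ℂ) * u.1 (s, none) x)
      (volume : Measure (Conf N)) := by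
    refine AEStronglyMeasurable.mul ?_ (Lp.memLp _).1
    exact (Complex.measurable_ofReal.comp (p.measurable.norm.inv)).aestronglyMeasurable
  rw [memLp_two_iff_integrable_sq_norm hm]
  refine (hardy_HS p i hp s u).1.congr (ae_of_all _ fun x => ?_)
  simp only [norm_mul, Complex.norm_real, norm_inv, norm_norm, mul_pow]
  rw [div_eq_inv_mul, inv_pow]

/-- multiplication by `1/|p x|` of the component `s`. -/
def mulInvL (hp : ∀ k, p (dir i k) = EuclideanSpace.single k 1) (s : Spn N) :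
    HS N →ₗ[ℂ] LC N where
  toFun u := (memLp_mulInv p i hp s u).toLp _
  map_add' u v := by
    refine Lp.ext ?_
    filter_upwards [(memLp_mulInv p i hp s (u + v)).coeFn_toLp,
      (memLp_mulInv p i hp s u).coeFn_toLp, (memLp_mulInv p i hp s v).coeFn_toLp,
      Lp.coeFn_add ((memLp_mulInv p i hp s u).toLp _) ((memLp_mulInv p i hp s v).toLp _),
      Lp.coeFn_add (u.1 (s, none)) (v.1 (s, none))] with x h1 h2 h3 h4 h5
    rw [h1, h4, Pi.add_apply, h2, h3]
    have h6 : (u + v).1 (s, none) = u.1 (s, none) + v.1 (s, none) := rfl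
    rw [h6, h5, Pi.add_apply]
    ring
  map_smul' c u := by
    refine Lp.ext ?_
    filter_upwards [(memLp_mulInv p i hp s (c • u)).coeFn_toLp,
      (memLp_mulInv p i hp s u).coeFn_toLp,
      Lp.coeFn_smul c ((memLp_mulInv p i hp s u).toLp _),
      Lp.coeFn_smul c (u.1 (s, none))] with x h1 h2 h3 h4
    rw [h1]
    have h6 : (c • u).1 (s, none) = c • u.1 (s, none) := rfl
    rw [RingHom.id_apply, h3, Pi.smul_apply, h2, h6, h4, Pi.smul_apply, smul_eq_mul, smul_eq_mul]
    ring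

theorem norm_mulInvL_sq (hp : ∀ k, p (dir i k) = EuclideanSpace.single k 1) (s : Spn N)
    (u : HS N) : ‖mulInvL p i hp s u‖ ^ 2 ≤ 4 * ∑ k, ‖u.1 (s, some (i, k))‖ ^ 2 := by
  have h1 : ‖mulInvL p i hp s u‖ ^ 2 = ∫ x, ‖u.1 (s, none) x‖ ^ 2 / ‖p x‖ ^ 2 := by
    have h2 := norm_toLp_sq (memLp_mulInv p i hp s u)
    have h3 : mulInvL p i hp s u = (memLp_mulInv p i hp s u).toLp _ := rfl
    rw [h3, h2]
    congr 1
    funext x
    simp only [norm_mul, Complex.norm_real, norm_inv, norm_norm, mul_pow]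
    rw [div_eq_inv_mul, inv_pow]
  rw [h1]
  exact (hardy_HS p i hp s u).2

theorem sum_comp_le (u : Amb N) (s : Spn N) (i : Fin N) :
    ∑ k, ‖u (s, some (i, k))‖ ^ 2 ≤ ‖u‖ ^ 2 := by
  rw [PiLp.norm_sq_eq_of_L2]
  have hinj : Function.Injective (fun k : Fin 3 => ((s, some (i, k)) : Idx N)) := by
    intro k l hkl
    simpa using hkl
  rw [← Finset.sum_image (f := fun q : Idx N => ‖u q‖ ^ 2) (s := Finset.univ)
    (g := fun k : Fin 3 => ((s, some (i, k)) : Idx N)) (fun k _ l _ h => hinj h)]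
  exact Finset.sum_le_sum_of_subset_of_nonneg (Finset.subset_univ _) fun _ _ _ => sq_nonneg _

/-- multiplication by `1/|p x|`, bounded from `H¹` to `L²` (Hardy). -/
def mulInv (hp : ∀ k, p (dir i k) = EuclideanSpace.single k 1) (s : Spn N) :
    HS N →L[ℂ] LC N :=
  (mulInvL p i hp s).mkContinuous 2 fun u => by
    have h1 := norm_mulInvL_sq p i hp s u
    have h2 := sum_comp_le (u : Amb N) s i
    have h3 : ‖mulInvL p i hp s u‖ ^ 2 ≤ (2 * ‖u‖) ^ 2 := by
      rw [mul_pow]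
      have : ‖u‖ = ‖(u : Amb N)‖ := rfl
      rw [this]; linarith
    exact abs_le_of_sq_le_sq' h3 (by positivity) |>.2

theorem mulInv_ae (hp : ∀ k, p (dir i k) = EuclideanSpace.single k 1) (s : Spn N) (u : HS N) :
    mulInv p i hp s u =ᵐ[volume] fun x => ((‖p x‖⁻¹ : ℝ) : ℂ) * u.1 (s, none) x :=
  (memLp_mulInv p i hp s u).coeFn_toLp

theorem norm_mulInv_sq (hp : ∀ k, p (dir i k) = EuclideanSpace.single k 1) (s : Spn N)
    (u : HS N) : ‖mulInv p i hp s u‖ ^ 2 ≤ 4 * ∑ k, ‖u.1 (s, some (i, k))‖ ^ 2 :=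
  norm_mulInvL_sq p i hp s u

/-- the form `∑_s ∫ conj(u_s) v_s / |p x|`. -/
def invF (hp : ∀ k, p (dir i k) = EuclideanSpace.single k 1) :
    HS N →L⋆[ℂ] HS N →L[ℂ] ℂ :=
  ∑ s : Spn N, pull ((comp (s, none)).comp (HSub N).subtypeL) (mulInv p i hp s)

theorem invF_apply (hp : ∀ k, p (dir i k) = EuclideanSpace.single k 1) (u v : HS N) :
    invF p i hp u v = ∑ s, ∫ x, ((‖p x‖⁻¹ : ℝ) : ℂ) * (conj (u.1 (s, none) x) * v.1 (s, none) x) := by
  simp only [invF, sum_apply, pull_apply]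
  refine Finset.sum_congr rfl fun s _ => ?_
  rw [L2.inner_def]
  apply integral_congr_ae
  filter_upwards [mulInv_ae p i hp s v] with x hx
  rw [hx]
  simp [RCLike.inner_apply]
  ring

end mul

/-! ### the Hamiltonian form -/

/-- position of the `i`-th electron -/
def pI (i : Fin N) : Conf N →L[ℝ] R3 := ContinuousLinearMap.proj (R := ℝ) (φ := fun _ => R3) i

@[simp] theorem pI_apply (i : Fin N) (x : Conf N) : pI i x = x i := rfl

theorem pI_dir (i : Fin N) (k : Fin 3) : pI i (dir i k) = EuclideanSpace.single k 1 := by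
  simp [dir, e3]

/-- difference of positions -/
def pD (i j : Fin N) : Conf N →L[ℝ] R3 := pI i - pI j

@[simp] theorem pD_apply (i j : Fin N) (x : Conf N) : pD i j x = x i - x j := rfl

theorem pD_dir {i j : Fin N} (h : i < j) (k : Fin 3) :
    pD i j (dir i k) = EuclideanSpace.single k 1 := by
  simp [dir, e3, h.ne']

/-- nuclear attraction form, `∑_i 1/|x_i|` -/
def nucF (N : ℕ) : HS N →L⋆[ℂ] HS N →L[ℂ] ℂ := ∑ i : Fin N, invF (pI i) i (pI_dir i)

/-- electron repulsion form, `∑_{i<j} 1/|x_i-x_j|` -/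
def repF (N : ℕ) : HS N →L⋆[ℂ] HS N →L[ℂ] ℂ :=
  ∑ i : Fin N, ∑ j : Fin N, if h : i < j then invF (pD i j) i (pD_dir h) else 0

/-- restriction of a form along a continuous linear map -/
def resF {V W : Type*} [NormedAddCommGroup V] [NormedSpace ℂ V] [NormedAddCommGroup W]
    [NormedSpace ℂ W] (A : W →L⋆[ℂ] W →L[ℂ] ℂ) (T : V →L[ℂ] W) : V →L⋆[ℂ] V →L[ℂ] ℂ :=
  (((ContinuousLinearMap.compL ℂ V W ℂ).flip T).comp A).comp T

theorem resF_apply {V W : Type*} [NormedAddCommGroup V] [NormedSpace ℂ V] [NormedAddCommGroup W]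
    [NormedSpace ℂ W] (A : W →L⋆[ℂ] W →L[ℂ] ℂ) (T : V →L[ℂ] W) (u v : V) :
    resF A T u v = A (T u) (T v) := by
  simp [resF]

/-- the form of the scaled atomic Hamiltonian on `HS N`. -/
def hamF (N : ℕ) (lam : ℝ) : HS N →L⋆[ℂ] HS N →L[ℂ] ℂ :=
  resF (kinF N) (HSub N).subtypeL - nucF N + (lam : ℂ) • repF N

/-- inclusion of the antisymmetric space -/
def inclFS (N : ℕ) : FS N →L[ℂ] HS N :=
  ((FSub N).subtypeL).codRestrict (HSub N) (fun u => u.2.1)

@[simp] theorem inclFS_coe (u : FS N) : (inclFS N u : Amb N) = u := rfl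

/-- the form of the scaled atomic Hamiltonian on `FS N`. -/
def hamFS (N : ℕ) (lam : ℝ) : FS N →L⋆[ℂ] FS N →L[ℂ] ℂ := resF (hamF N lam) (inclFS N)

/-- the repulsion form on `FS N`. -/
def repFS (N : ℕ) : FS N →L⋆[ℂ] FS N →L[ℂ] ℂ := resF (repF N) (inclFS N)

theorem hamFS_eq (N : ℕ) (lam : ℝ) : hamFS N lam = hamFS N 0 + (lam : ℂ) • repFS N := by
  ext u v
  simp only [hamFS, repFS, resF_apply, hamF, add_apply, sub_apply, smul_apply,
    Complex.ofReal_zero, zero_smul, add_zero]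

/-- amplitude map on `FS N`. -/
def J (N : ℕ) : FS N →L[ℂ] LS N := am.comp (FSub N).subtypeL

@[simp] theorem J_apply (u : FS N) (s : Spn N) : J N u s = u.1 (s, none) := rfl

theorem integrable_inv {p : Conf N →L[ℝ] R3} {i : Fin N}
    (hp : ∀ k, p (dir i k) = EuclideanSpace.single k 1) (s : Spn N) (u : HS N) :
    Integrable (fun x => ‖p x‖⁻¹ * ‖u.1 (s, none) x‖ ^ 2) := by
  have h := (coulomb_le (μ := (volume : Measure (Conf N))) p 0 (fun k => dir i k) hp
    (Lp.memLp (u.1 (s, none))) (fun k => Lp.memLp (u.1 (s, some (i, k)))) (fun k => u.2 s i k)).1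
  refine h.congr (ae_of_all _ fun x => ?_)
  simp only [sub_zero]
  rw [div_eq_inv_mul]

theorem qf_invF {p : Conf N →L[ℝ] R3} {i : Fin N}
    (hp : ∀ k, p (dir i k) = EuclideanSpace.single k 1) (u : HS N) :
    invF p i hp u u = ((∑ s, ∫ x, ‖p x‖⁻¹ * ‖u.1 (s, none) x‖ ^ 2 : ℝ) : ℂ) := by
  rw [invF_apply]
  push_cast
  refine Finset.sum_congr rfl fun s _ => ?_
  rw [← integral_complex_ofReal]
  congr 1
  funext x
  rw [Complex.conj_mul']
  push_cast
  rfl

theorem integrable_rep_term {i j : Fin N} (s : Spn N) (u : HS N) (h : i < j) :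
    Integrable (fun x : Conf N => (1 / ‖x i - x j‖) * ‖u.1 (s, none) x‖ ^ 2) := by
  have := integrable_inv (pD_dir h) s u
  simpa [one_div] using this

theorem qf_repF (u : HS N) :
    repF N u u = ((∑ s, ∫ x, rep x * ‖u.1 (s, none) x‖ ^ 2 : ℝ) : ℂ) := by
  have h1 : ∀ s, ∫ x, rep x * ‖u.1 (s, none) x‖ ^ 2 =
      ∑ i : Fin N, ∑ j : Fin N, if i < j then
        ∫ x : Conf N, ‖x i - x j‖⁻¹ * ‖u.1 (s, none) x‖ ^ 2 else 0 := by
    intro s
    have hint : ∀ i j : Fin N, Integrable (fun x : Conf N => if i < j then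
        (1 / ‖x i - x j‖) * ‖u.1 (s, none) x‖ ^ 2 else 0) := by
      intro i j
      split_ifs with h
      · exact integrable_rep_term s u h
      · exact integrable_zero _ _ _
    have h2 : ∀ x : Conf N, rep x * ‖u.1 (s, none) x‖ ^ 2 = ∑ i : Fin N, ∑ j : Fin N,
        if i < j then (1 / ‖x i - x j‖) * ‖u.1 (s, none) x‖ ^ 2 else 0 := by
      intro x
      unfold rep
      rw [Finset.sum_mul]
      refine Finset.sum_congr rfl fun i _ => ?_
      rw [Finset.sum_mul, ← Finset.sum_filter]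
      refine Finset.sum_congr ?_ fun _ _ => rfl
      ext j; simp
    simp only [h2]
    rw [integral_finsetSum _ fun i _ => integrable_finsetSum _ fun j _ => hint i j]
    refine Finset.sum_congr rfl fun i _ => ?_
    rw [integral_finsetSum _ fun j _ => hint i j]
    refine Finset.sum_congr rfl fun j _ => ?_
    split_ifs with h
    · congr 1; funext x; rw [one_div]
    · simp
  simp only [h1]
  unfold repF
  have h2 : (∑ i : Fin N, ∑ j : Fin N, if h : i < j then invF (pD i j) i (pD_dir h) else 0) u u =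
      ∑ i : Fin N, ∑ j : Fin N, (if h : i < j then invF (pD i j) i (pD_dir h) else 0) u u := by
    rw [sum_form_apply]
    exact Finset.sum_congr rfl fun i _ => sum_form_apply _ _ _ _
  rw [h2]
  have h3 : (∑ s : Spn N, ∑ i : Fin N, ∑ j : Fin N, if i < j then
        ∫ x : Conf N, ‖x i - x j‖⁻¹ * ‖u.1 (s, none) x‖ ^ 2 else 0) =
      ∑ i : Fin N, ∑ j : Fin N, ∑ s : Spn N, if i < j then
        ∫ x : Conf N, ‖x i - x j‖⁻¹ * ‖u.1 (s, none) x‖ ^ 2 else 0 := by
    rw [Finset.sum_comm]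
    exact Finset.sum_congr rfl fun i _ => Finset.sum_comm
  rw [h3]
  rw [Complex.ofReal_sum]
  refine Finset.sum_congr rfl fun i _ => ?_
  rw [Complex.ofReal_sum]
  refine Finset.sum_congr rfl fun j _ => ?_
  by_cases h : i < j
  · simp only [h, dif_pos, if_true]
    rw [qf_invF]
    rfl
  · simp [h]

theorem qf_nucF (u : HS N) :
    nucF N u u = ((∑ s, ∑ i, ∫ x : Conf N, ‖x i‖⁻¹ * ‖u.1 (s, none) x‖ ^ 2 : ℝ) : ℂ) := by
  unfold nucF
  rw [sum_form_apply, Finset.sum_comm, Complex.ofReal_sum]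
  refine Finset.sum_congr rfl fun i _ => ?_
  rw [qf_invF]
  rfl

theorem qf_kinF (u : Amb N) : kinF N u u = ((1 / 2 * kin u : ℝ) : ℂ) := by
  rw [kinF_apply]
  unfold kin
  push_cast
  congr 1
  refine Finset.sum_congr rfl fun s _ => Finset.sum_congr rfl fun i _ =>
    Finset.sum_congr rfl fun k _ => ?_
  rw [inner_self_eq_norm_sq_to_K]
  rfl

/-- hermitian forms -/
theorem pull_herm {V H : Type*} [NormedAddCommGroup V] [NormedSpace ℂ V]
    [NormedAddCommGroup H] [InnerProductSpace ℂ H] (S : V →L[ℂ] H) (u v : V) :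
    conj (pull S S u v) = pull S S v u := by
  rw [pull_apply, pull_apply, inner_conj_symm]

theorem kinF_herm (u v : Amb N) : conj (kinF N u v) = kinF N v u := by
  rw [kinF_apply, kinF_apply, map_mul]
  congr 1
  · rw [map_div₀, map_one, map_ofNat]
  · rw [map_sum]
    refine Finset.sum_congr rfl fun s _ => ?_
    rw [map_sum]
    refine Finset.sum_congr rfl fun i _ => ?_
    rw [map_sum]
    exact Finset.sum_congr rfl fun k _ => inner_conj_symm _ _

theorem invF_herm {p : Conf N →L[ℝ] R3} {i : Fin N}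
    (hp : ∀ k, p (dir i k) = EuclideanSpace.single k 1) (u v : HS N) :
    conj (invF p i hp u v) = invF p i hp v u := by
  rw [invF_apply, invF_apply, map_sum]
  refine Finset.sum_congr rfl fun s _ => ?_
  rw [← integral_conj]
  congr 1; funext x
  simp only [map_mul, Complex.conj_ofReal, Complex.conj_conj]
  ring

theorem nucF_herm (u v : HS N) : conj (nucF N u v) = nucF N v u := by
  unfold nucF
  rw [sum_form_apply, sum_form_apply, map_sum]
  exact Finset.sum_congr rfl fun i _ => invF_herm _ u v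

theorem repF_herm (u v : HS N) : conj (repF N u v) = repF N v u := by
  unfold repF
  rw [sum_form_apply, sum_form_apply, map_sum]
  refine Finset.sum_congr rfl fun i _ => ?_
  rw [sum_form_apply, sum_form_apply, map_sum]
  refine Finset.sum_congr rfl fun j _ => ?_
  by_cases h : i < j
  · simp only [h, dif_pos]
    exact invF_herm _ u v
  · simp [h]

theorem hamF_apply (lam : ℝ) (u v : HS N) :
    hamF N lam u v = kinF N u v - nucF N u v + lam * repF N u v := by
  simp only [hamF, add_apply, sub_apply, smul_apply, resF_apply, smul_eq_mul]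
  rfl

theorem hamF_herm (lam : ℝ) (u v : HS N) : conj (hamF N lam u v) = hamF N lam v u := by
  rw [hamF_apply, hamF_apply, map_add, map_sub, map_mul, kinF_herm, nucF_herm, repF_herm,
    Complex.conj_ofReal]

theorem hamFS_apply (lam : ℝ) (u v : FS N) :
    hamFS N lam u v = hamF N lam (inclFS N u) (inclFS N v) := resF_apply _ _ _ _

theorem repFS_apply (u v : FS N) :
    repFS N u v = repF N (inclFS N u) (inclFS N v) := resF_apply _ _ _ _

theorem hamFS_herm (lam : ℝ) (u v : FS N) : conj (hamFS N lam u v) = hamFS N lam v u := by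
  rw [hamFS_apply, hamFS_apply, hamF_herm]

theorem repFS_herm (u v : FS N) : conj (repFS N u v) = repFS N v u := by
  rw [repFS_apply, repFS_apply, repF_herm]

/-! ### link with the energy of `ElectronState` -/

theorem integrable_rep (s : Spn N) (u : HS N) :
    Integrable (fun x : Conf N => rep x * ‖u.1 (s, none) x‖ ^ 2) := by
  have h2 : (fun x : Conf N => rep x * ‖u.1 (s, none) x‖ ^ 2) = fun x => ∑ i : Fin N,
      ∑ j ∈ Finset.Ioi i, (1 / ‖x i - x j‖) * ‖u.1 (s, none) x‖ ^ 2 := by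
    funext x
    unfold rep
    rw [Finset.sum_mul]
    exact Finset.sum_congr rfl fun i _ => Finset.sum_mul _ _ _
  rw [h2]
  exact integrable_finsetSum _ fun i _ => integrable_finsetSum _ fun j hj =>
    integrable_rep_term s u (Finset.mem_Ioi.1 hj)

theorem integrable_nuc (s : Spn N) (u : HS N) (i : Fin N) :
    Integrable (fun x : Conf N => ‖x i‖⁻¹ * ‖u.1 (s, none) x‖ ^ 2) :=
  integrable_inv (pI_dir i) s u

theorem integral_pot (lam : ℝ) (s : Spn N) (u : HS N) :
    Integrable (fun x => pot lam x * ‖u.1 (s, none) x‖ ^ 2) ∧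
    ∫ x, pot lam x * ‖u.1 (s, none) x‖ ^ 2 =
      -(∑ i, ∫ x : Conf N, ‖x i‖⁻¹ * ‖u.1 (s, none) x‖ ^ 2) +
        lam * ∫ x, rep x * ‖u.1 (s, none) x‖ ^ 2 := by
  have h1 : (fun x => pot lam x * ‖u.1 (s, none) x‖ ^ 2) = fun x : Conf N =>
      (∑ i, -(‖x i‖⁻¹ * ‖u.1 (s, none) x‖ ^ 2)) + lam * (rep x * ‖u.1 (s, none) x‖ ^ 2) := by
    funext x
    unfold pot
    rw [add_mul, Finset.sum_mul]
    congr 1
    · refine Finset.sum_congr rfl fun i _ => ?_
      rw [one_div]; ring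
    · ring
  have h2 : ∀ i ∈ Finset.univ, Integrable
      (fun x : Conf N => -(‖x i‖⁻¹ * ‖u.1 (s, none) x‖ ^ 2)) :=
    fun i _ => (integrable_nuc s u i).neg
  rw [h1]
  refine ⟨(integrable_finsetSum _ h2).add ((integrable_rep s u).const_mul lam), ?_⟩
  rw [integral_add (integrable_finsetSum _ h2) ((integrable_rep s u).const_mul lam),
    integral_finsetSum _ h2, integral_const_mul]
  simp only [integral_neg, Finset.sum_neg_distrib]

/-- the form `hamFS` is the energy. -/
theorem hamFS_self (lam : ℝ) (u : FS N) :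
    hamFS N lam u u = ((energy (pot lam) (ofFS u) : ℝ) : ℂ) := by
  rw [hamFS_apply, hamF_apply, qf_nucF, qf_repF]
  have h0 : kinF N (inclFS N u : Amb N) (inclFS N u : Amb N) = ((1 / 2 * kin u.1 : ℝ) : ℂ) :=
    qf_kinF _
  rw [h0]
  have h1 : energy (pot lam) (ofFS u) = 1 / 2 * kin u.1 -
      (∑ s, ∑ i, ∫ x : Conf N, ‖x i‖⁻¹ * ‖(inclFS N u).1 (s, none) x‖ ^ 2) +
      lam * (∑ s, ∫ x, rep x * ‖(inclFS N u).1 (s, none) x‖ ^ 2) := by
    unfold energy
    have h2 : ∀ s, intR (fun x => pot lam x * ‖(ofFS u).amp s x‖ ^ 2) =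
      -(∑ i, ∫ x : Conf N, ‖x i‖⁻¹ * ‖(inclFS N u).1 (s, none) x‖ ^ 2) +
        lam * ∫ x, rep x * ‖(inclFS N u).1 (s, none) x‖ ^ 2 := fun s =>
      (integral_pot lam s (inclFS N u)).2
    rw [Finset.sum_congr rfl fun s _ => h2 s, Finset.sum_add_distrib, ← Finset.mul_sum,
      Finset.sum_neg_distrib]
    have h3 : (∑ s, ∑ i, ∑ k, intR fun x => ‖(ofFS u).grad s i k x‖ ^ 2) = kin u.1 := by
      unfold kin
      refine Finset.sum_congr rfl fun s _ => Finset.sum_congr rfl fun i _ =>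
        Finset.sum_congr rfl fun k _ => ?_
      rw [norm_LC_sq]
      rfl
    rw [h3]; ring
  rw [h1]
  push_cast
  ring

theorem normSq_ofFS (u : FS N) : normSq (ofFS u) = ‖J N u‖ ^ 2 := by
  have h := norm_am_sq (u.1 : Amb N)
  have h1 : ‖J N u‖ ^ 2 = ‖am (u.1 : Amb N)‖ ^ 2 := rfl
  rw [h1, h]
  unfold normSq
  refine Finset.sum_congr rfl fun s _ => ?_
  rw [norm_LC_sq]
  rfl

theorem repFS_self (u : FS N) :
    repFS N u u = ((∑ s, ∫ x, rep x * ‖(ofFS u).amp s x‖ ^ 2 : ℝ) : ℂ) := by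
  rw [repFS_apply, qf_repF]
  rfl

end

end Vale.Agent.P363.H518
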