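import Vale.Agent.P363.R2.h518.Forms
import Vale.Agent.P363.R2.h518.HydroInst
import Vale.Agent.P363.R.B4.PT

/-!
# [G1] the hypotheses of the abstract perturbation theory for the atom
-/

namespace Vale.Agent.P363.H518

open MeasureTheory Filter Topology
open Vale.Agent.P363.Stmt Vale.Agent.P363.R.Sob Vale.Agent.P363.H382 Vale.Agent.P363.R.Top
open Vale.Agent.P363.R.B4
open scoped ENNReal ComplexConjugate ContDiff InnerProductSpace

noncomputable section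

variable {N : ℕ}

theorem herm_hamFS (lam : ℝ) : Vale.Agent.P363.R.B4.Herm (hamFS N lam) := fun x y =>
  (hamFS_herm lam x y).symm

theorem herm_repFS : Vale.Agent.P363.R.B4.Herm (repFS N) := fun x y => (repFS_herm x y).symm

theorem qd_hamFS (lam : ℝ) (u : FS N) : qd (hamFS N lam) u = energy (pot lam) (ofFS u) := by
  rw [qd, hamFS_self, Complex.ofReal_re]

theorem qd_repFS (u : FS N) : qd (repFS N) u = ∑ s, ∫ x, rep x * ‖(ofFS u).amp s x‖ ^ 2 := by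
  rw [qd, repFS_self, Complex.ofReal_re]

theorem rep_nonneg (x : Conf N) : 0 ≤ rep x := by
  unfold rep
  exact Finset.sum_nonneg fun i _ => Finset.sum_nonneg fun j _ => by positivity

theorem repFS_nonneg (u : FS N) : 0 ≤ qd (repFS N) u := by
  rw [qd_repFS]
  exact Finset.sum_nonneg fun s _ => integral_nonneg fun x =>
    mul_nonneg (rep_nonneg x) (sq_nonneg _)

theorem norm_FS_sq (u : FS N) : ‖u‖ ^ 2 = ‖J N u‖ ^ 2 + kin u.1 := norm_sq_eq u.1

theorem kin_nonneg (u : Amb N) : 0 ≤ kin u :=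
  Finset.sum_nonneg fun _ _ => Finset.sum_nonneg fun _ _ => Finset.sum_nonneg fun _ _ =>
    sq_nonneg _

/-- form bound of the nuclear attraction. -/
theorem nuc_le (u : HS N) : ∑ s, ∑ i, ∫ x : Conf N, ‖x i‖⁻¹ * ‖u.1 (s, none) x‖ ^ 2 ≤
    (1 / 4) * kin u.1 + (4 * N) * ∑ s, ‖u.1 (s, none)‖ ^ 2 := by
  have h1 : ∀ s i, ∫ x : Conf N, ‖x i‖⁻¹ * ‖u.1 (s, none) x‖ ^ 2 ≤
      (1 / 4) * ∑ k, ‖u.1 (s, some (i, k))‖ ^ 2 + 4 * ‖u.1 (s, none)‖ ^ 2 := by
    intro s i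
    have h := (coulomb_le (μ := (volume : Measure (Conf N))) (pI i) 0 (fun k => dir i k)
      (pI_dir i) (Lp.memLp (u.1 (s, none))) (fun k => Lp.memLp (u.1 (s, some (i, k))))
      (fun k => u.2 s i k)).2 (1 / 4) (by norm_num)
    simp only [sub_zero, pI_apply] at h
    have e1 : ∫ x : Conf N, ‖x i‖⁻¹ * ‖u.1 (s, none) x‖ ^ 2 =
        ∫ x : Conf N, ‖u.1 (s, none) x‖ ^ 2 / ‖x i‖ := by
      congr 1; funext x; rw [div_eq_inv_mul]
    rw [e1]
    refine h.trans (le_of_eq ?_)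
    simp only [← norm_LC_sq]
    ring
  have h2 : ∑ s, ∑ i, ∫ x : Conf N, ‖x i‖⁻¹ * ‖u.1 (s, none) x‖ ^ 2 ≤
      ∑ s, ∑ i : Fin N, ((1 / 4) * ∑ k, ‖u.1 (s, some (i, k))‖ ^ 2 + 4 * ‖u.1 (s, none)‖ ^ 2) :=
    Finset.sum_le_sum fun s _ => Finset.sum_le_sum fun i _ => h1 s i
  refine h2.trans (le_of_eq ?_)
  unfold kin
  rw [Finset.mul_sum, Finset.mul_sum, ← Finset.sum_add_distrib]
  refine Finset.sum_congr rfl fun s _ => ?_
  rw [Finset.sum_add_distrib, ← Finset.mul_sum]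
  simp only [Finset.sum_const, Finset.card_univ, Fintype.card_fin, nsmul_eq_mul]
  ring

/-- Garding inequality. -/
theorem garding (u : FS N) :
    (1 / 4) * ‖u‖ ^ 2 ≤ qd (hamFS N 0) u + (4 * N + 1 / 4) * ‖J N u‖ ^ 2 := by
  have h1 : qd (hamFS N 0) u = 1 / 2 * kin u.1 -
      ∑ s, ∑ i, ∫ x : Conf N, ‖x i‖⁻¹ * ‖(inclFS N u).1 (s, none) x‖ ^ 2 := by
    rw [qd, hamFS_apply, hamF_apply, qf_nucF]
    have h0 : kinF N (inclFS N u : Amb N) (inclFS N u : Amb N) = ((1 / 2 * kin u.1 : ℝ) : ℂ) :=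
      qf_kinF _
    rw [h0]
    simp only [Complex.ofReal_zero, zero_mul, add_zero]
    rw [← Complex.ofReal_sub, Complex.ofReal_re]
  have h2 := nuc_le (inclFS N u)
  have h3 : ∑ s, ‖(inclFS N u).1 (s, none)‖ ^ 2 = ‖J N u‖ ^ 2 := (norm_am_sq u.1).symm
  rw [h3] at h2
  have h4 : kin (inclFS N u).1 = kin u.1 := rfl
  rw [h4] at h2
  rw [h1, norm_FS_sq]
  have := kin_nonneg u.1
  nlinarith

/-- the hypotheses of the abstract perturbation theory. -/
theorem pt_of (P : Submodule ℂ (FS N))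
    (heig : ∀ p ∈ P, ∀ x, hamFS N 0 p x = ((E0 N : ℝ) : ℂ) * ⟪J N p, J N x⟫_ℂ)
    (horth : ∀ x, (∀ p ∈ P, ⟪J N p, J N x⟫_ℂ = 0) → pSq (ofFS x) = 0) :
    PT (J N) (hamFS N 0) (repFS N) P (E0 N) (5 / 72) (1 / 4) (4 * N + 1 / 4) where
  hA := herm_hamFS 0
  hW := herm_repFS
  Wpos := repFS_nonneg
  hc := by norm_num
  hg := by norm_num
  coer := garding
  eig := heig
  gap x hx := by
    rw [qd_hamFS, ← normSq_ofFS]
    have h1 := starU (ofFS x)
    rw [horth x hx] at h1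
    linarith

end

end Vale.Agent.P363.H518
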