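import Vale.Agent.P363.R2.h518.G1
import Vale.Agent.P363.H95.Eigen
import Vale.Agent.P363.H849.Orbitals
import Vale.Agent.P363.H979.CI.Defs

/-!
# [G1], second part: the ground space of the noninteracting atom
-/

namespace Vale.Agent.P363.H518

open MeasureTheory Filter Topology
open Vale.Agent.P363.Stmt Vale.Agent.P363.R.Sob Vale.Agent.P363.H382 Vale.Agent.P363.R.Top
open Vale.Agent.P363.R.B4 Vale.Agent.P363.H95 Vale.Agent.P363.H979.CI
open scoped ENNReal ComplexConjugate ContDiff InnerProductSpace

noncomputable section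

variable {N : ℕ}

/-- complex gradient of the hydrogen orbitals -/
def corbG (a : Fin 5) (k : Fin 3) (x : R3) : ℂ := (H849.orbG a k x : ℂ)

theorem oneBody : OneBody corb corbG where
  mem a := (H849.orb_memLp a).ofReal
  gmem a k := (H849.orbG_memLp a k).ofReal
  wd a k := by
    have h := H849.orb_isWD a k
    intro φ hφ
    have h1 := h φ hφ
    have e1 : ∫ x, (fderiv ℝ φ x (e3 k)) • corb a x =
        ((∫ x, (fderiv ℝ φ x (e3 k)) • orb a x : ℝ) : ℂ) := by
      rw [← integral_complex_ofReal]
      congr 1; funext x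
      simp [corb, Complex.real_smul]
    have e2 : ∫ x, φ x • corbG a k x = ((∫ x, φ x • H849.orbG a k x : ℝ) : ℂ) := by
      rw [← integral_complex_ofReal]
      congr 1; funext x
      simp [corbG, Complex.real_smul]
    rw [e1, e2, ← Complex.ofReal_neg]
    congr 1

theorem orth_corb : Orth corb := coef_corb_corb

/-- hydrogen potential -/
def vH (r : R3) : ℝ := -(1 / ‖r‖)

theorem memLp_vH (a : Fin 5) : MemLp (fun r => (vH r : ℂ) * corb a r) 2 (volume : Measure R3) := by
  have h1 : MemLp (fun x => orb a x / ‖x‖) 2 := (H849.orb_bd0 a).div_norm.memLp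
  have h2 := (h1.ofReal (K := ℂ)).neg
  refine h2.congr_norm ?_ (ae_of_all _ fun x => ?_)
  · refine h2.1.congr (ae_of_all _ fun x => ?_)
    simp [vH, corb]; ring
  · simp [vH, corb]; ring

theorem eig_orb (a : Fin 5) : Eig vH (orbE a) (corb a) (corbG a) := by
  intro f g hf hg hW
  have h := H849.orb_eigen hf hg hW a
  have e1 : ∀ k, coef volume (corbG a k) (g k) = ∫ x, (H849.orbG a k x : ℂ) * g k x := by
    intro k
    unfold coef corbG
    congr 1; funext x
    rw [Complex.conj_ofReal]
  have e2 : coef volume (fun r => (vH r : ℂ) * corb a r) f =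
      -∫ x, (orb a x : ℂ) * f x / (‖x‖ : ℂ) := by
    unfold coef corb vH
    rw [← integral_neg]
    congr 1; funext x
    rw [map_mul, Complex.conj_ofReal, Complex.conj_ofReal]
    push_cast
    ring
  simp only [e1]
  rw [e2, coef_corb, ← h]
  ring

/-- the space of core tensors -/
def CT (N : ℕ) : Submodule ℂ (Ten N) where
  carrier := {c | Anti c ∧ Core c}
  add_mem' := by
    rintro c d ⟨hc, hc'⟩ ⟨hd, hd'⟩
    refine ⟨fun σ J => ?_, fun J hJ => ?_⟩
    · simp only [Pi.add_apply]
      rw [hc σ J, hd σ J]; ring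
    · by_cases h : c J = 0
      · refine hd' J fun h' => hJ ?_
        simp [h, h']
      · exact hc' J h
  zero_mem' := ⟨fun σ J => by simp, fun J hJ => (hJ rfl).elim⟩
  smul_mem' := by
    rintro z c ⟨hc, hc'⟩
    refine ⟨fun σ J => ?_, fun J hJ => ?_⟩
    · simp only [Pi.smul_apply, smul_eq_mul]
      rw [hc σ J]; ring
    · refine hc' J fun h' => hJ ?_
      simp [h']

theorem mem_CT {c : Ten N} : c ∈ CT N ↔ Anti c ∧ Core c := Iff.rfl

instance (N : ℕ) : FiniteDimensional ℂ (Ten N) := inferInstanceAs
  (FiniteDimensional ℂ ((Fin N → SO) → ℂ))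

/-- the state of a core tensor -/
def stT (c : CT N) : ElectronState N := ofTen oneBody c.1 c.2.1

/-- the linear map from core tensors to states. -/
def T (N : ℕ) : CT N →ₗ[ℂ] FS N where
  toFun c := toFS (stT c)
  map_add' c d := by
    apply Subtype.ext
    refine PiLp.ext fun p => ?_
    rcases p with ⟨s, _ | ⟨i, k⟩⟩
    · refine Lp.ext ?_
      have h1 := amb_none_ae (stT (c + d)) s
      have h2 := amb_none_ae (stT c) s
      have h3 := amb_none_ae (stT d) s
      have h4 := Lp.coeFn_add (amb (stT c) (s, none)) (amb (stT d) (s, none))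
      show amb (stT (c + d)) (s, none) =ᵐ[volume]
        (amb (stT c) (s, none) + amb (stT d) (s, none) : LC N)
      filter_upwards [h1, h2, h3, h4] with x a1 a2 a3 a4
      rw [a1, a4, Pi.add_apply, a2, a3]
      simp only [stT, ofTen, Submodule.coe_add, Pi.add_apply, add_mul, Finset.sum_add_distrib]
    · refine Lp.ext ?_
      have h1 := amb_some_ae (stT (c + d)) s i k
      have h2 := amb_some_ae (stT c) s i k
      have h3 := amb_some_ae (stT d) s i k
      have h4 := Lp.coeFn_add (amb (stT c) (s, some (i, k))) (amb (stT d) (s, some (i, k)))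
      show amb (stT (c + d)) (s, some (i, k)) =ᵐ[volume]
        (amb (stT c) (s, some (i, k)) + amb (stT d) (s, some (i, k)) : LC N)
      filter_upwards [h1, h2, h3, h4] with x a1 a2 a3 a4
      rw [a1, a4, Pi.add_apply, a2, a3]
      simp only [stT, ofTen, Submodule.coe_add, Pi.add_apply, add_mul, Finset.sum_add_distrib]
  map_smul' z c := by
    apply Subtype.ext
    refine PiLp.ext fun p => ?_
    rcases p with ⟨s, _ | ⟨i, k⟩⟩
    · refine Lp.ext ?_
      have h1 := amb_none_ae (stT (z • c)) s
      have h2 := amb_none_ae (stT c) s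
      have h4 := Lp.coeFn_smul z (amb (stT c) (s, none))
      show amb (stT (z • c)) (s, none) =ᵐ[volume] (z • amb (stT c) (s, none) : LC N)
      filter_upwards [h1, h2, h4] with x a1 a2 a4
      rw [a1, a4, Pi.smul_apply, a2]
      simp only [stT, ofTen, Submodule.coe_smul, Pi.smul_apply, smul_eq_mul, Finset.mul_sum,
        mul_assoc]
    · refine Lp.ext ?_
      have h1 := amb_some_ae (stT (z • c)) s i k
      have h2 := amb_some_ae (stT c) s i k
      have h4 := Lp.coeFn_smul z (amb (stT c) (s, some (i, k)))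
      show amb (stT (z • c)) (s, some (i, k)) =ᵐ[volume]
        (z • amb (stT c) (s, some (i, k)) : LC N)
      filter_upwards [h1, h2, h4] with x a1 a2 a4
      rw [a1, a4, Pi.smul_apply, a2]
      simp only [stT, ofTen, Submodule.coe_smul, Pi.smul_apply, smul_eq_mul, Finset.mul_sum,
        mul_assoc]

theorem T_apply (c : CT N) : T N c = toFS (stT c) := rfl

/-- the `L²` inner product on `FS N` is `inn`. -/
theorem inner_J (u v : FS N) : ⟪J N u, J N v⟫_ℂ = inn (ofFS u) (ofFS v) := by
  rw [PiLp.inner_apply]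
  unfold inn
  refine Finset.sum_congr rfl fun s _ => ?_
  rw [L2.inner_def]
  congr 1; funext x
  rw [RCLike.inner_apply, mul_comm]
  rfl

theorem inner_J_toFS (Φ Ψ : ElectronState N) :
    ⟪J N (toFS Φ), J N (toFS Ψ)⟫_ℂ = inn Φ Ψ := by
  rw [PiLp.inner_apply]
  unfold inn
  refine Finset.sum_congr rfl fun s _ => ?_
  rw [L2.inner_def]
  apply integral_congr_ae
  have h1 := amb_none_ae Φ s
  have h2 := amb_none_ae Ψ s
  filter_upwards [h1, h2] with x a1 a2
  have e1 : J N (toFS Φ) s x = Φ.amp s x := a1
  have e2 : J N (toFS Ψ) s x = Ψ.amp s x := a2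
  rw [e1, e2, RCLike.inner_apply, mul_comm]

theorem inner_J_toFS_left (Φ : ElectronState N) (u : FS N) :
    ⟪J N (toFS Φ), J N u⟫_ℂ = inn Φ (ofFS u) := by
  have h := inner_J_toFS Φ (ofFS u)
  rwa [toFS_ofFS] at h

/-- inner products of core states. -/
theorem inner_T (c d : CT N) : ⟪J N (T N c), J N (T N d)⟫_ℂ = tin c.1 d.1 := by
  rw [T_apply, T_apply, inner_J_toFS]
  exact inn_ofTen orth_corb

/-- overlap of a core state with an arbitrary state -/
theorem inner_T_left (c : CT N) (u : FS N) :
    ⟪J N (T N c), J N u⟫_ℂ = ∑ I, conj (c.1 I) * cT corb (ofFS u) I := by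
  rw [T_apply, inner_J_toFS_left]
  exact inn_ofTen_left _

theorem cT_eq_cJ (Ψ : ElectronState N) (I : Fin N → Fin 5 × Fin 2) : cT corb Ψ I = cJ Ψ I := by
  unfold cT cJ coef tp
  congr 1; funext x
  rw [map_prod]
  push_cast
  congr 1
  exact Finset.prod_congr rfl fun i _ => by simp [corb]

/-- the energy sum of a core tuple. -/
theorem sum_orbE {c : Ten N} (hc : Anti c) (hc' : Core c) {I : Fin N → SO} (hI : c I ≠ 0) :
    ∑ i, orbE (I i).1 = E0 N ∧ I ∈ pat N := by
  -- `I` is injective
  have hinj : Function.Injective I := by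
    intro i j hij
    by_contra hne
    have h1 := hc (Equiv.swap i j) I
    have h2 : I ∘ Equiv.swap i j = I := by
      funext l
      simp only [Function.comp_apply]
      rcases eq_or_ne l i with h | h
      · subst h; rw [Equiv.swap_apply_left]; exact hij.symm
      · rcases eq_or_ne l j with h' | h'
        · subst h'; rw [Equiv.swap_apply_right]; exact hij
        · rw [Equiv.swap_apply_of_ne_of_ne h h']
    rw [h2, Equiv.Perm.sign_swap hne] at h1
    apply hI
    have : (2 : ℂ) * c I = 0 := by
      push_cast at h1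
      linear_combination h1
    simpa using this
  obtain ⟨⟨i, hi⟩, ⟨j, hj⟩⟩ := hc' I hI
  have hij : i ≠ j := by
    rintro rfl
    rw [hi] at hj
    simp at hj
  have hset : (Finset.univ.filter fun l => (I l).1 = 0) = {i, j} := by
    ext l
    simp only [Finset.mem_filter, Finset.mem_univ, true_and, Finset.mem_insert,
      Finset.mem_singleton]
    constructor
    · intro hl
      rcases Fin.exists_fin_two.1 ⟨(I l).2, rfl⟩ with h | h
      · left; apply hinj; rw [hi]; exact Prod.ext hl h
      · right; apply hinj; rw [hj]; exact Prod.ext hl h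
    · rintro (rfl | rfl)
      · rw [hi]
      · rw [hj]
  have hcard : (Finset.univ.filter fun l => (I l).1 = 0).card = 2 := by
    rw [hset, Finset.card_pair hij]
  refine ⟨?_, ?_⟩
  · have h1 : ∀ l, orbE (I l).1 = -(1 / 8) - (3 / 8) * (if (I l).1 = 0 then 1 else 0) := by
      intro l
      unfold orbE
      split_ifs <;> norm_num
    simp only [h1, Finset.sum_sub_distrib, ← Finset.mul_sum, Finset.sum_boole, hcard,
      Finset.sum_const, Finset.card_univ, Fintype.card_fin, nsmul_eq_mul]
    unfold E0
    push_cast; ring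
  · exact Finset.mem_filter.2 ⟨Finset.mem_univ _, hcard⟩

/-- the form `hamFS N 0` in terms of helper95's `aForm`. -/
theorem hamFS_zero_eq (Φ : ElectronState N) (x : FS N) :
    hamFS N 0 (toFS Φ) x = aForm vH Φ (ofFS x).amp (ofFS x).grad := by
  rw [hamFS_apply, hamF_apply]
  simp only [Complex.ofReal_zero, zero_mul, add_zero]
  unfold aForm
  have h1 : kinF N (inclFS N (toFS Φ) : Amb N) (inclFS N x : Amb N) =
      1 / 2 * ∑ s, ∑ i, ∑ k, ∫ y, conj (Φ.grad s i k y) * (ofFS x).grad s i k y := by
    rw [kinF_apply]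
    congr 1
    refine Finset.sum_congr rfl fun s _ => Finset.sum_congr rfl fun i _ =>
      Finset.sum_congr rfl fun k _ => ?_
    rw [L2.inner_def]
    apply integral_congr_ae
    filter_upwards [amb_some_ae Φ s i k] with y hy
    have e1 : (inclFS N (toFS Φ) : Amb N) (s, some (i, k)) y = Φ.grad s i k y := hy
    rw [e1, RCLike.inner_apply, mul_comm]
    rfl
  have h2 : nucF N (inclFS N (toFS Φ)) (inclFS N x) =
      -∑ s, ∫ y, ((sumPotential vH y : ℝ) : ℂ) * (conj (Φ.amp s y) * (ofFS x).amp s y) := by
    unfold nucF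
    rw [sum_form_apply]
    simp only [invF_apply]
    rw [Finset.sum_comm, ← Finset.sum_neg_distrib]
    refine Finset.sum_congr rfl fun s _ => ?_
    have hint : ∀ i ∈ Finset.univ, Integrable (fun y : Conf N => ((‖pI i y‖⁻¹ : ℝ) : ℂ) *
        (conj ((inclFS N (toFS Φ)).1 (s, none) y) * (inclFS N x).1 (s, none) y)) := by
      intro i _
      have h3 := integrable_coef (Lp.memLp ((inclFS N (toFS Φ)).1 (s, none)))
        (memLp_mulInv (pI i) i (pI_dir i) s (inclFS N x))
      refine h3.congr (ae_of_all _ fun y => ?_)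
      simp only
      ring
    rw [← integral_finsetSum _ hint, ← integral_neg]
    apply integral_congr_ae
    filter_upwards [amb_none_ae Φ s] with y hy
    have e1 : (inclFS N (toFS Φ)).1 (s, none) y = Φ.amp s y := hy
    rw [e1]
    unfold sumPotential vH
    push_cast
    rw [Finset.sum_neg_distrib, neg_mul, neg_neg, Finset.sum_mul]
    refine Finset.sum_congr rfl fun i _ => ?_
    rw [one_div]
    rfl
  have h3 : kinF N (inclFS N (toFS Φ) : Amb N) (inclFS N x : Amb N) -
      nucF N (inclFS N (toFS Φ)) (inclFS N x) = (1 / 2 * ∑ s, ∑ i, ∑ k, ∫ y,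
        conj (Φ.grad s i k y) * (ofFS x).grad s i k y) + ∑ s, ∫ y,
          ((sumPotential vH y : ℝ) : ℂ) * (conj (Φ.amp s y) * (ofFS x).amp s y) := by
    rw [h1, h2, sub_neg_eq_add]
  exact h3

/-- eigen-equation of the core states -/
theorem eig_T (c : CT N) (x : FS N) :
    hamFS N 0 (T N c) x = ((E0 N : ℝ) : ℂ) * ⟪J N (T N c), J N x⟫_ℂ := by
  rw [inner_T_left, T_apply, hamFS_zero_eq]
  have h := aForm_ofTen (u := corb) (gu := corbG) oneBody c.2.1 (v := vH) (e := orbE) memLp_vH
    eig_orb (F := (ofFS x).amp) (G := (ofFS x).grad) (ofFS x).amp_memLp (ofFS x).grad_memLp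
    (fun s i k => isWeakDeriv_iff.1 ((ofFS x).grad_weak s i k))
  have h0 : aForm vH (stT c) (ofFS x).amp (ofFS x).grad = _ := h
  rw [h0, Finset.mul_sum]
  refine Finset.sum_congr rfl fun I _ => ?_
  by_cases hI : c.1 I = 0
  · rw [hI]; simp
  · have h1 := (sum_orbE c.2.1 c.2.2 hI).1
    have h2 : (∑ i, ((orbE (I i).1 : ℝ) : ℂ)) = ((E0 N : ℝ) : ℂ) := by
      rw [← h1]; push_cast; rfl
    rw [h2]
    rfl

/-- the noninteracting ground space -/
def coreP (N : ℕ) : Submodule ℂ (FS N) := LinearMap.range (T N)

instance (N : ℕ) : FiniteDimensional ℂ (coreP N) := by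
  unfold coreP
  infer_instance

/-- the projection of the coefficients of a state on core tuples -/
def coreTen (Ψ : ElectronState N) : Ten N := fun I => if I ∈ pat N then cT corb Ψ I else 0

theorem coreTen_mem (Ψ : ElectronState N) : coreTen Ψ ∈ CT N := by
  refine ⟨fun σ I => ?_, fun I hI => ?_⟩
  · unfold coreTen
    have h1 : (I ∘ σ) ∈ pat N ↔ I ∈ pat N := by
      unfold pat
      simp only [Finset.mem_filter, Finset.mem_univ, true_and, Function.comp_apply]
      have : (Finset.univ.filter fun i => (I (σ i)).1 = 0) =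
          (Finset.univ.filter fun i => (I i).1 = 0).map σ.symm.toEmbedding := by
        ext l
        simp
      rw [this, Finset.card_map]
    by_cases h : I ∈ pat N
    · rw [if_pos (h1.2 h), if_pos h]
      exact antiT_cT corb Ψ σ I
    · rw [if_neg (fun h' => h (h1.1 h')), if_neg h, mul_zero]
  · unfold coreTen at hI
    have hp : I ∈ pat N := by
      by_contra h
      exact hI (if_neg h)
    rw [if_pos hp] at hI
    -- `I` is injective
    have hanti := antiT_cT corb Ψ
    have hinj : Function.Injective I := by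
      intro i j hij
      by_contra hne
      have h1 := hanti (Equiv.swap i j) I
      have h2 : I ∘ Equiv.swap i j = I := by
        funext l
        simp only [Function.comp_apply]
        rcases eq_or_ne l i with h | h
        · subst h; rw [Equiv.swap_apply_left]; exact hij.symm
        · rcases eq_or_ne l j with h' | h'
          · subst h'; rw [Equiv.swap_apply_right]; exact hij
          · rw [Equiv.swap_apply_of_ne_of_ne h h']
      rw [h2, Equiv.Perm.sign_swap hne] at h1
      apply hI
      have : (2 : ℂ) * cT corb Ψ I = 0 := by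
        push_cast at h1
        linear_combination h1
      simpa using this
    have hcard := (Finset.mem_filter.1 hp).2
    obtain ⟨i, j, hij, hset⟩ := Finset.card_eq_two.1 hcard
    have hi : (I i).1 = 0 := by
      have : i ∈ Finset.univ.filter fun l => (I l).1 = 0 := by rw [hset]; simp
      exact (Finset.mem_filter.1 this).2
    have hj : (I j).1 = 0 := by
      have : j ∈ Finset.univ.filter fun l => (I l).1 = 0 := by rw [hset]; simp
      exact (Finset.mem_filter.1 this).2
    have hne : (I i).2 ≠ (I j).2 := fun h => hij (hinj (Prod.ext (hi.trans hj.symm) h))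
    rcases Fin.exists_fin_two.1 ⟨(I i).2, rfl⟩ with h0 | h0
    · refine ⟨⟨i, Prod.ext hi h0⟩, ⟨j, Prod.ext hj ?_⟩⟩
      rcases Fin.exists_fin_two.1 ⟨(I j).2, rfl⟩ with h1 | h1
      · exact (hne (h0.trans h1.symm)).elim
      · exact h1
    · refine ⟨⟨j, Prod.ext hj ?_⟩, ⟨i, Prod.ext hi h0⟩⟩
      rcases Fin.exists_fin_two.1 ⟨(I j).2, rfl⟩ with h1 | h1
      · exact h1
      · exact (hne (h0.trans h1.symm)).elim

/-- **[G1]**: the hypotheses of the abstract perturbation theory hold for the atom. -/
theorem pt (N : ℕ) :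
    PT (J N) (hamFS N 0) (repFS N) (coreP N) (E0 N) (5 / 72) (1 / 4) (4 * N + 1 / 4) := by
  apply pt_of
  · rintro _ ⟨c, rfl⟩ x
    exact eig_T c x
  · intro x hx
    have h1 := hx (T N ⟨coreTen (ofFS x), coreTen_mem _⟩) ⟨_, rfl⟩
    rw [inner_T_left] at h1
    have h2 : ∑ I, conj (coreTen (ofFS x) I) * cT corb (ofFS x) I =
        ((pSq (ofFS x) : ℝ) : ℂ) := by
      unfold pSq
      rw [Complex.ofReal_sum]
      rw [← Finset.sum_filter_add_sum_filter_not Finset.univ (fun I => I ∈ pat N)]
      have e1 : ∑ I with I ∉ pat N, conj (coreTen (ofFS x) I) * cT corb (ofFS x) I = 0 := by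
        apply Finset.sum_eq_zero
        intro I hI
        have : I ∉ pat N := (Finset.mem_filter.1 hI).2
        simp [coreTen, this]
      rw [e1, add_zero]
      have e2 : (Finset.univ.filter fun I => I ∈ pat N) = pat N := by ext I; simp
      rw [e2]
      refine Finset.sum_congr rfl fun I hI => ?_
      unfold coreTen
      rw [if_pos hI, cT_eq_cJ, Complex.conj_mul']
      push_cast; rfl
    have h3 : ((pSq (ofFS x) : ℝ) : ℂ) = 0 := by rw [← h2]; exact h1
    exact_mod_cast h3

end

end Vale.Agent.P363.H518
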