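import Vale.Agent.P363.R2.h518.ONB

/-!
# The product orthonormal basis of `L²(X^N)` and partial coefficients in one coordinate
-/

namespace Vale.Agent.P363.H518

open MeasureTheory Filter Topology
open scoped ENNReal ComplexConjugate

set_option linter.unusedSectionVars false

noncomputable section

variable {X ι : Type*} [MeasurableSpace X] {μ : Measure X} [SigmaFinite μ]

/-- product function -/
def prodFun {N : ℕ} (u : ι → X → ℂ) (I : Fin N → ι) (x : Fin N → X) : ℂ := ∏ j, u (I j) (x j)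

/-- the product measure -/
abbrev piM (μ : Measure X) (N : ℕ) : Measure (Fin N → X) := Measure.pi fun _ => μ

theorem mp_succAbove (μ : Measure X) [SigmaFinite μ] {n : ℕ} (i : Fin (n + 1)) :
    MeasurePreserving (MeasurableEquiv.piFinSuccAbove (fun _ : Fin (n + 1) => X) i)
      (piM μ (n + 1)) (μ.prod (piM μ n)) :=
  measurePreserving_piFinSuccAbove (fun _ : Fin (n + 1) => μ) i

theorem prodFun_insertNth {n : ℕ} (u : ι → X → ℂ) (i : Fin (n + 1)) (I : Fin (n + 1) → ι)
    (x : X) (y : Fin n → X) :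
    prodFun u I (i.insertNth x y) = u (I i) x * prodFun u (i.removeNth I) y := by
  unfold prodFun
  rw [Fin.prod_univ_succAbove _ i]
  simp [Fin.removeNth]

theorem prodFun_eq {n : ℕ} (u : ι → X → ℂ) (i : Fin (n + 1)) (I : Fin (n + 1) → ι)
    (z : Fin (n + 1) → X) :
    prodFun u I z = u (I i) (z i) * prodFun u (i.removeNth I) (i.removeNth z) := by
  rw [← prodFun_insertNth, Fin.insertNth_self_removeNth]

/-- **product orthonormal basis.** -/
theorem IsONB.pi [Countable ι] {u : ι → X → ℂ} (hu : IsONB μ u) (N : ℕ) :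
    IsONB (piM μ N) (prodFun (N := N) u) := by
  induction N with
  | zero =>
    have hpi : piM μ 0 = Measure.dirac (fun i => i.elim0) := Measure.pi_of_empty _ _
    refine ⟨fun I => ?_, fun I => ?_, fun I J hIJ => (hIJ (Subsingleton.elim _ _)).elim,
      fun f hf h0 => ?_⟩
    · rw [hpi]
      have : prodFun u I = fun _ : Fin 0 → X => (1 : ℂ) := by
        funext x; simp [prodFun]
      rw [this]
      exact memLp_const 1
    · unfold coef
      rw [hpi]
      simp [prodFun]
    · have h1 := h0 (fun i => i.elim0)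
      unfold coef at h1
      rw [hpi] at h1 ⊢
      rw [integral_dirac] at h1
      simp only [prodFun, Finset.univ_eq_empty, Finset.prod_empty, map_one, one_mul] at h1
      refine ae_of_all _ fun x => ?_
      rw [Subsingleton.elim x (fun i => i.elim0), h1]; rfl
  | succ n ih =>
    have h1 := (hu.prod ih).comp _ (mp_succAbove μ (0 : Fin (n + 1)))
    have h2 := h1.reindex ((Fin.insertNthEquiv (fun _ : Fin (n + 1) => ι) 0).symm)
    convert h2 using 3 with I z
    rw [prodFun_eq u 0 I z]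
    rfl

/-- partial coefficient: all coordinates but the `i`-th are integrated out. -/
def pc (μ : Measure X) {n : ℕ} (u : ι → X → ℂ) (i : Fin (n + 1)) (J : Fin n → ι)
    (f : (Fin (n + 1) → X) → ℂ) (x : X) : ℂ :=
  ∫ y, conj (prodFun u J y) * f (i.insertNth x y) ∂(piM μ n)

variable {n : ℕ} {u : ι → X → ℂ} {f : (Fin (n + 1) → X) → ℂ}

theorem pc_eq (i : Fin (n + 1)) (J : Fin n → ι) (x : X) :
    pc μ u i J f x = pcoef (piM μ n) (prodFun u J)
      (fun z => f ((MeasurableEquiv.piFinSuccAbove (fun _ : Fin (n + 1) => X) i).symm z)) x := rfl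

theorem memLp_comp_symm (i : Fin (n + 1)) (hf : MemLp f 2 (piM μ (n + 1))) :
    MemLp (fun z => f ((MeasurableEquiv.piFinSuccAbove (fun _ : Fin (n + 1) => X) i).symm z)) 2
      (μ.prod (piM μ n)) :=
  hf.comp_measurePreserving ((mp_succAbove μ i).symm _)

theorem memLp_pc [Countable ι] (hu : IsONB μ u) (i : Fin (n + 1)) (J : Fin n → ι)
    (hf : MemLp f 2 (piM μ (n + 1))) : MemLp (pc μ u i J f) 2 μ :=
  memLp_pcoef ((hu.pi n).mem J) (memLp_comp_symm i hf)

/-- **partial Parseval with a weight in the `i`-th coordinate.** -/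
theorem tsum_pc [Countable ι] (hu : IsONB μ u) (i : Fin (n + 1))
    (hf : MemLp f 2 (piM μ (n + 1))) {W : X → ℝ≥0∞} (hW : AEMeasurable W μ) :
    ∑' J, ∫⁻ x, W x * ‖pc μ u i J f x‖ₑ ^ 2 ∂μ =
      ∫⁻ z, W (z i) * ‖f z‖ₑ ^ 2 ∂(piM μ (n + 1)) := by
  have h1 := (hu.pi n).tsum_pcoef (μ := μ) (memLp_comp_symm i hf) hW
  have h2 := (mp_succAbove μ i).lintegral_comp_emb (MeasurableEquiv.measurableEmbedding _)
    (fun z => W z.1 *
      ‖f ((MeasurableEquiv.piFinSuccAbove (fun _ : Fin (n + 1) => X) i).symm z)‖ₑ ^ 2)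
  rw [← h2] at h1
  simp only [MeasurableEquiv.symm_apply_apply] at h1
  exact h1

/-- coefficients factor through the partial coefficients. -/
theorem coef_pc [Countable ι] (hu : IsONB μ u) (i : Fin (n + 1)) (I : Fin (n + 1) → ι)
    (hf : MemLp f 2 (piM μ (n + 1))) :
    coef (piM μ (n + 1)) (prodFun u I) f = coef μ (u (I i)) (pc μ u i (i.removeNth I) f) := by
  have h1 := coef_prod (μ := μ) (ν := piM μ n) (v := u (I i)) (w := prodFun u (i.removeNth I))
    (memLp_comp_symm i hf) (memLp_mul_prod (hu.mem _) ((hu.pi n).mem _))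
  have h2 : coef μ (u (I i)) (pc μ u i (i.removeNth I) f) = coef μ (u (I i))
      (pcoef (piM μ n) (prodFun u (i.removeNth I)) (fun z => f
        ((MeasurableEquiv.piFinSuccAbove (fun _ : Fin (n + 1) => X) i).symm z))) := rfl
  rw [h2, ← h1]
  unfold coef
  rw [← (mp_succAbove μ i).integral_comp (MeasurableEquiv.measurableEmbedding _)]
  congr 1
  funext z
  beta_reduce
  rw [MeasurableEquiv.symm_apply_apply, prodFun_eq u i I z]
  rfl

/-- Parseval in `L²(X^N)`. -/
theorem tsum_coef [Countable ι] (hu : IsONB μ u) {N : ℕ} {f : (Fin N → X) → ℂ}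
    (hf : MemLp f 2 (piM μ N)) :
    ∑' I, ‖coef (piM μ N) (prodFun u I) f‖ₑ ^ 2 = ∫⁻ z, ‖f z‖ₑ ^ 2 ∂(piM μ N) :=
  (hu.pi N).tsum_enorm hf

/-- permuting coordinates and indices. -/
theorem coef_perm {N : ℕ} (σ : Equiv.Perm (Fin N)) (I : Fin N → ι) (f : (Fin N → X) → ℂ) :
    coef (piM μ N) (prodFun u (I ∘ σ)) (fun x => f (x ∘ σ.symm)) =
      coef (piM μ N) (prodFun u I) f := by
  unfold coef
  have h1 : MeasurePreserving (MeasurableEquiv.piCongrLeft (fun _ : Fin N => X) σ)
      (piM μ N) (piM μ N) := measurePreserving_piCongrLeft (fun _ : Fin N => μ) σ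
  rw [← h1.integral_comp (MeasurableEquiv.measurableEmbedding _)
    (fun x => conj (prodFun u I x) * f x)]
  congr 1
  funext x
  have h2 : (MeasurableEquiv.piCongrLeft (fun _ : Fin N => X) σ) x = x ∘ σ.symm := by
    funext j
    have := MeasurableEquiv.piCongrLeft_apply_apply (β := fun _ : Fin N => X) σ x (σ.symm j)
    simpa using this
  rw [h2]
  congr 2
  unfold prodFun
  rw [← Equiv.prod_comp σ (fun j => u (I j) ((x ∘ σ.symm) j))]
  simp

end

end Vale.Agent.P363.H518
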